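import Vale.Agent.P092.H589.K2w

/-!
P092, stage 3 over every local field (helper156): **the abstract class step**, for level sets
`D k m` which are unions of cells of level `m` (the level need not be constant on the cells).
-/

set_option linter.all false

namespace Vale.Agent.P092.H156.CO

open Finset
open Vale.Agent.P092.H464 (Pv)
open Vale.Agent.P092.H589.K2 (Opf mink_sum)
open Vale.Agent.P092.H589.Mu (Cap)

variable {K : Type} [NormedAddCommGroup K] [InnerProductSpace ℂ K] [CompleteSpace K]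

/-- **the abstract unit step**: `ch k ν ω` = there is a chain of `k` from `ν` to `ω`; `D k m` = the
points of level `m` of `k`, a union of cells of level `m`; `P m t` = the neighbourhood of the
cell -/
theorem unitY {Y T κ : Type} [MeasurableSpace Y] {Ls Ln : Set Y → (K →L[ℂ] K)} (hLs : Pv Ls)
    (hLn : Pv Ln) (Z : K →L[ℂ] K) (J : ℕ) (lb : ℕ → Y → T)
    (hfin : ∀ m, ∃ G : Finset T, ∀ y, lb m y ∈ G)
    (hmeas : ∀ m t, MeasurableSet {y | lb m y = t}) (S : Finset κ) (ch : κ → Y → Y → Prop)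
    (D : κ → ℕ → Y → Prop) (hD : ∀ k ∈ S, ∀ m y y', lb m y = lb m y' → D k m y → D k m y')
    (hDd : ∀ k ∈ S, ∀ m m' y, D k m y → D k m' y → m = m')
    (hDc : ∀ k ∈ S, ∀ ν ω, ch k ν ω → ∃ m ≤ J, D k m ω)
    (P : ℕ → T → Set Y) (hPm : ∀ m t, MeasurableSet (P m t))
    (hP : ∀ k ∈ S, ∀ ν ω m, ch k ν ω → D k m ω → ν ∈ P m (lb m ω)) (M : ℕ)
    (hM : ∀ m ν, ∀ U : Finset T, (∀ t ∈ U, (∃ y, lb m y = t) ∧ ν ∈ P m t) → U.card ≤ M)
    (E W : κ → (K →L[ℂ] K))
    (hins : ∀ k ∈ S, ∀ A D : Set Y, MeasurableSet A → MeasurableSet D →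
      (∀ ν ∈ A, ∀ ω ∈ D, ¬ ch k ν ω) → Ln A * (E k * (W k * (Ls D * Z))) = 0)
    (MT : ℝ) (hMT : 0 ≤ MT) (v : K)
    (hmul : ∀ m t, ∀ S' ⊆ S, S'.Nonempty → (∀ k ∈ S', ∃ y, lb m y = t ∧ D k m y) →
      ∑ k ∈ S', ‖E k (W k (Ls {y | lb m y = t} (Z v)))‖ ^ 2 ≤
        MT ^ 2 * ‖Ls {y | lb m y = t} (Z v)‖ ^ 2) :
    ∑ k ∈ S, ‖E k (W k (Z v))‖ ^ 2 ≤ (Real.sqrt M * MT * (J + 1)) ^ 2 * ‖Z v‖ ^ 2 := by
  classical
  choose 𝒞 h𝒞 using hfin
  set cell : ℕ → T → Set Y := fun m t => {y | lb m y = t} with hcell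
  have hcd : ∀ m t t', t ≠ t' → Disjoint (cell m t) (cell m t') := fun m t t' htt =>
    Set.disjoint_left.2 fun y h1 h2 => htt ((h1 : lb m y = t).symm.trans h2)
  set 𝒲 : κ → ℕ → Finset T := fun k m =>
    (𝒞 m).filter fun t => ∃ y, lb m y = t ∧ D k m y with h𝒲
  have hmc : ∀ k ∈ S, ∀ m, ∀ t, t ∈ 𝒲 k m → ∀ y ∈ cell m t, D k m y := by
    intro k hk m t ht y hy
    obtain ⟨y', h1, h2⟩ := (mem_filter.1 ht).2
    exact hD k hk m y' y (h1.trans (hy : lb m y = t).symm) h2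
  set U : κ → ℕ → Set Y := fun k m => ⋃ t ∈ 𝒲 k m, cell m t with hU
  have hUm : ∀ k m, MeasurableSet (U k m) := fun k m =>
    Finset.measurableSet_biUnion _ fun t _ => hmeas m t
  have hUd : ∀ k ∈ S, ∀ m ∈ range (J + 1), ∀ m' ∈ range (J + 1), m ≠ m' →
      Disjoint (U k m) (U k m') := by
    intro k hk m _ m' _ hmm'
    rw [Set.disjoint_left]
    intro y hy hy'
    simp only [hU, Set.mem_iUnion, exists_prop] at hy hy'
    obtain ⟨t, ht, hyt⟩ := hy
    obtain ⟨t', ht', hyt'⟩ := hy'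
    exact hmm' (hDd k hk m m' y (hmc k hk m t ht y hyt) (hmc k hk m' t' ht' y hyt'))
  -- decomposition
  set x : ℕ → κ → K := fun m k => ∑ t ∈ 𝒲 k m, E k (W k (Ls (cell m t) (Z v))) with hx
  have hsum : ∀ k ∈ S, E k (W k (Z v)) = ∑ m ∈ range (J + 1), x m k := by
    intro k hk
    set G : Set Y := ⋃ m ∈ range (J + 1), U k m with hG
    have hGm : MeasurableSet G := Finset.measurableSet_biUnion _ fun m _ => hUm k m
    have hG1 : Ls G = ∑ m ∈ range (J + 1), ∑ t ∈ 𝒲 k m, Ls (cell m t) := by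
      rw [hG, hLs.sum _ _ (fun m _ => hUm k m) (hUd k hk)]
      refine sum_congr rfl fun m _ => ?_
      exact hLs.sum _ _ (fun t _ => hmeas m t) fun t _ t' _ htt => hcd m t t' htt
    have h0 : Ln Set.univ * (E k * (W k * (Ls Gᶜ * Z))) = 0 := by
      refine hins k hk _ _ MeasurableSet.univ hGm.compl fun ν _ ω hω hch => hω ?_
      obtain ⟨m, hmJ, hDm⟩ := hDc k hk ν ω hch
      simp only [hG, hU, Set.mem_iUnion, exists_prop]
      refine ⟨m, mem_range.2 (Nat.lt_succ_of_le hmJ), lb m ω, ?_, rfl⟩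
      exact mem_filter.2 ⟨h𝒞 _ ω, ω, rfl, hDm⟩
    rw [hLn.univ, one_mul, hLs.compl _ hGm] at h0
    have h1 : E k (W k (Z v)) = E k (W k (Ls G (Z v))) := by
      have h2 := congrArg (fun T : K →L[ℂ] K => T v) h0
      have h3 : E k (W k (Z v - Ls G (Z v))) = 0 := by simpa using h2
      rw [map_sub, map_sub, sub_eq_zero] at h3
      exact h3
    rw [h1, hG1]
    simp only [_root_.sum_apply, map_sum, hx]
  -- one level
  have hlev : ∀ m ∈ range (J + 1), ∑ k ∈ S, ‖x m k‖ ^ 2 ≤ (Real.sqrt M * MT * ‖Z v‖) ^ 2 := by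
    intro m _
    have hleft : ∀ k ∈ S, ‖x m k‖ ^ 2
        ≤ M * ∑ t ∈ 𝒲 k m, ‖E k (W k (Ls (cell m t) (Z v)))‖ ^ 2 := by
      intro k hk
      have hfix : ∀ t ∈ 𝒲 k m, Ln (P m t) (E k (W k (Ls (cell m t) (Z v))))
          = E k (W k (Ls (cell m t) (Z v))) := by
        intro t ht
        have h0 : Ln (P m t)ᶜ * (E k * (W k * (Ls (cell m t) * Z))) = 0 := by
          refine hins k hk _ _ (hPm m t).compl (hmeas m t) fun ν hν ω hω hch => hν ?_
          have h1 := hP k hk ν ω m hch (hmc k hk m t ht ω hω)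
          rwa [(hω : lb m ω = t)] at h1
        have h1 : Ln (P m t)ᶜ (E k (W k (Ls (cell m t) (Z v)))) = 0 := by
          have := congrArg (fun T : K →L[ℂ] K => T v) h0
          simpa using this
        rw [hLn.compl _ (hPm m t)] at h1
        have h2 : E k (W k (Ls (cell m t) (Z v))) -
            Ln (P m t) (E k (W k (Ls (cell m t) (Z v)))) = 0 := by
          simpa using h1
        exact (sub_eq_zero.1 h2).symm
      have h1 : x m k = ∑ t ∈ 𝒲 k m, Ln (P m t) (E k (W k (Ls (cell m t) (Z v)))) := by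
        rw [hx]
        exact sum_congr rfl fun t ht => (hfix t ht).symm
      rw [h1]
      refine hLn.mult' (𝒲 k m) (P m) (fun t _ => hPm m t) M ?_ _
      intro ν T' hT hTν
      refine hM m ν T' fun t ht => ⟨?_, hTν t ht⟩
      obtain ⟨y, h3, _⟩ := (mem_filter.1 (hT ht)).2
      exact ⟨y, h3⟩
    have hcellb : ∀ t ∈ 𝒞 m, ∑ k ∈ S.filter (fun k => t ∈ 𝒲 k m),
        ‖E k (W k (Ls (cell m t) (Z v)))‖ ^ 2 ≤ MT ^ 2 * ‖Ls (cell m t) (Z v)‖ ^ 2 := by
      intro t _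
      rcases (S.filter fun k => t ∈ 𝒲 k m).eq_empty_or_nonempty with h0 | hne
      · rw [h0, sum_empty]; positivity
      refine hmul m t _ (filter_subset _ _) hne fun k hk => ?_
      exact (mem_filter.1 (mem_filter.1 hk).2).2
    calc ∑ k ∈ S, ‖x m k‖ ^ 2
        ≤ ∑ k ∈ S, M * ∑ t ∈ 𝒲 k m, ‖E k (W k (Ls (cell m t) (Z v)))‖ ^ 2 := sum_le_sum hleft
      _ = M * ∑ t ∈ 𝒞 m, ∑ k ∈ S.filter (fun k => t ∈ 𝒲 k m),
            ‖E k (W k (Ls (cell m t) (Z v)))‖ ^ 2 := by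
          rw [← mul_sum]
          congr 1
          have h1 : ∀ k ∈ S, ∑ t ∈ 𝒲 k m, ‖E k (W k (Ls (cell m t) (Z v)))‖ ^ 2
              = ∑ t ∈ 𝒞 m, if t ∈ 𝒲 k m then ‖E k (W k (Ls (cell m t) (Z v)))‖ ^ 2 else 0 := by
            intro k _
            rw [← sum_filter]
            refine sum_congr ?_ fun _ _ => rfl
            ext t
            exact ⟨fun h => mem_filter.2 ⟨(mem_filter.1 h).1, h⟩, fun h => (mem_filter.1 h).2⟩
          rw [sum_congr rfl h1, sum_comm]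
          exact sum_congr rfl fun t _ => by rw [sum_filter]
      _ ≤ M * ∑ t ∈ 𝒞 m, MT ^ 2 * ‖Ls (cell m t) (Z v)‖ ^ 2 := by
          gcongr with t ht
          exact hcellb t ht
      _ = M * (MT ^ 2 * ∑ t ∈ 𝒞 m, ‖Ls (cell m t) (Z v)‖ ^ 2) := by
          congr 1
          rw [← mul_sum]
      _ ≤ M * (MT ^ 2 * ‖Z v‖ ^ 2) := by
          gcongr
          exact hLs.bessel _ _ (fun t _ => hmeas m t) (fun t _ t' _ htt => hcd m t t' htt) _
      _ = _ := by
          rw [mul_pow, mul_pow, Real.sq_sqrt (Nat.cast_nonneg _)]; ring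
  have hfin := mink_sum S (range (J + 1)) x (fun _ => Real.sqrt M * MT * ‖Z v‖)
    (fun _ _ => by positivity) hlev
  calc ∑ k ∈ S, ‖E k (W k (Z v))‖ ^ 2 = ∑ k ∈ S, ‖∑ m ∈ range (J + 1), x m k‖ ^ 2 :=
        sum_congr rfl fun k hk => by rw [hsum k hk]
    _ ≤ _ := hfin
    _ = _ := by
        rw [sum_const, card_range, nsmul_eq_mul]
        push_cast
        ring

/-- **joint labels**: `U k m` = a union of cells of level `m`, two of the `U k m` can only meet at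
consecutive levels. -/
theorem unitZ {Y T κ : Type} [MeasurableSpace Y] {Ls Ln : Set Y → (K →L[ℂ] K)} (hLs : Pv Ls)
    (hLn : Pv Ln) (Z : K →L[ℂ] K) (J : ℕ) (lb : ℕ → Y → T)
    (hfin : ∀ m, ∃ G : Finset T, ∀ y, lb m y ∈ G)
    (hmeas : ∀ m t, MeasurableSet {y | lb m y = t}) (S : Finset κ) (ch : κ → Y → Y → Prop)
    (U : κ → ℕ → Y → Prop) (hU : ∀ k ∈ S, ∀ m y y', lb m y = lb m y' → U k m y → U k m y')
    (hUd : ∀ k ∈ S, ∀ m m' y, U k m y → U k m' y → m' ≤ m + 1)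
    (hUc : ∀ k ∈ S, ∀ ν ω, ch k ν ω → ∃ m ≤ J, U k m ω)
    (P : ℕ → T → Set Y) (hPm : ∀ m t, MeasurableSet (P m t))
    (hP : ∀ k ∈ S, ∀ ν ω m, ch k ν ω → U k m ω → ν ∈ P m (lb m ω)) (M : ℕ)
    (hM : ∀ m ν, ∀ V : Finset T, (∀ t ∈ V, (∃ y, lb m y = t) ∧ ν ∈ P m t) → V.card ≤ M)
    (hM' : ∀ m t, ∀ V : Finset T, (∀ s ∈ V, ∃ y, lb m y = s ∧ lb (m + 1) y = t) → V.card ≤ M)
    (E W : κ → (K →L[ℂ] K))
    (hins : ∀ k ∈ S, ∀ A D : Set Y, MeasurableSet A → MeasurableSet D →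
      (∀ ν ∈ A, ∀ ω ∈ D, ¬ ch k ν ω) → Ln A * (E k * (W k * (Ls D * Z))) = 0)
    (MT : ℝ) (hMT : 0 ≤ MT) (v : K)
    (hmul : ∀ m t, ∀ A : Set Y, MeasurableSet A → A.Nonempty → (∀ y ∈ A, lb m y = t) →
      ∀ S' ⊆ S, S'.Nonempty → (∀ k ∈ S', ∀ y ∈ A, U k m y) →
      ∑ k ∈ S', ‖E k (W k (Ls A (Z v)))‖ ^ 2 ≤ MT ^ 2 * ‖Ls A (Z v)‖ ^ 2) :
    ∑ k ∈ S, ‖E k (W k (Z v))‖ ^ 2 ≤ (M * MT * (J + 1)) ^ 2 * ‖Z v‖ ^ 2 := by
  classical
  set lb' : ℕ → Y → T × T := fun m y => (lb (m - 1) y, lb m y) with hlb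
  set D : κ → ℕ → Y → Prop := fun k m y => U k m y ∧ (m ≠ 0 → ¬ U k (m - 1) y) with hD
  have hMM : ∀ m ν, ∀ V : Finset (T × T),
      (∀ t ∈ V, (∃ y, lb' m y = t) ∧ ν ∈ P m t.2) → V.card ≤ M * M := by
    intro m ν V hV
    have h1 : (V.image Prod.snd).card ≤ M := by
      refine hM m ν _ fun t ht => ?_
      obtain ⟨p, hp, rfl⟩ := mem_image.1 ht
      obtain ⟨⟨y, hy⟩, h2⟩ := hV p hp
      exact ⟨⟨y, congrArg Prod.snd hy⟩, h2⟩
    have h2 : ∀ t ∈ V.image Prod.snd, (V.filter fun p => p.2 = t).card ≤ M := by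
      intro t _
      rcases Nat.eq_zero_or_pos m with h0 | hpos
      · -- one label
        have h3 : ((V.filter fun p => p.2 = t).image Prod.snd).card ≤ M := by
          refine hM m ν _ fun s hs => ?_
          obtain ⟨p, hp, rfl⟩ := mem_image.1 hs
          obtain ⟨⟨y, hy⟩, h2⟩ := hV p (mem_filter.1 hp).1
          exact ⟨⟨y, congrArg Prod.snd hy⟩, h2⟩
        rwa [card_image_of_injOn] at h3
        intro p hp p' hp' he
        obtain ⟨⟨y, hy⟩, _⟩ := hV p (mem_filter.1 hp).1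
        obtain ⟨⟨y', hy'⟩, _⟩ := hV p' (mem_filter.1 hp').1
        subst h0
        rw [← hy, ← hy'] at he ⊢
        exact Prod.ext he he
      · obtain ⟨m', rfl⟩ : ∃ m', m = m' + 1 := ⟨m - 1, by omega⟩
        have h3 : ((V.filter fun p => p.2 = t).image Prod.fst).card ≤ M := by
          refine hM' m' t _ fun s hs => ?_
          obtain ⟨p, hp, rfl⟩ := mem_image.1 hs
          obtain ⟨hp1, hp2⟩ := mem_filter.1 hp
          obtain ⟨⟨y, hy⟩, _⟩ := hV p hp1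
          exact ⟨y, congrArg Prod.fst hy, (congrArg Prod.snd hy).trans hp2⟩
        rwa [card_image_of_injOn] at h3
        intro p hp p' hp' he
        exact Prod.ext he ((mem_filter.1 hp).2.trans (mem_filter.1 hp').2.symm)
    calc V.card = ∑ t ∈ V.image Prod.snd, (V.filter fun p => p.2 = t).card :=
          card_eq_sum_card_image _ _
      _ ≤ ∑ _t ∈ V.image Prod.snd, M := sum_le_sum h2
      _ = (V.image Prod.snd).card * M := by rw [sum_const, smul_eq_mul]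
      _ ≤ M * M := Nat.mul_le_mul_right _ h1
  have key := unitY hLs hLn Z J lb' (fun m => ?_) (fun m t => ?_) S ch D ?_ ?_ ?_
    (fun m t => P m t.2) (fun m t => hPm m t.2) ?_ (M * M) hMM E W hins MT hMT v ?_
  · refine key.trans (le_of_eq ?_)
    rw [Nat.cast_mul, Real.sqrt_mul_self (Nat.cast_nonneg _)]
  · obtain ⟨G, hG⟩ := hfin (m - 1)
    obtain ⟨G', hG'⟩ := hfin m
    exact ⟨G ×ˢ G', fun y => mem_product.2 ⟨hG y, hG' y⟩⟩
  · have e : {y | lb' m y = t} = {y | lb (m - 1) y = t.1} ∩ {y | lb m y = t.2} := by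
      ext y
      exact ⟨fun h => ⟨congrArg Prod.fst h, congrArg Prod.snd h⟩, fun h => Prod.ext h.1 h.2⟩
    rw [e]
    exact (hmeas _ _).inter (hmeas _ _)
  · intro k hk m y y' he h
    have e1 : lb (m - 1) y = lb (m - 1) y' := congrArg Prod.fst he
    have e2 : lb m y = lb m y' := congrArg Prod.snd he
    exact ⟨hU k hk m y y' e2 h.1, fun hm h' => h.2 hm (hU k hk (m - 1) y' y e1.symm h')⟩
  · have aux : ∀ k ∈ S, ∀ m m' y, m < m' → D k m y → D k m' y → False := by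
      intro k hk m m' y hlt h h'
      have h1 := hUd k hk m m' y h.1 h'.1
      obtain rfl : m' = m + 1 := by omega
      exact h'.2 (by omega) h.1
    intro k hk m m' y h h'
    rcases lt_trichotomy m m' with h1 | h1 | h1
    · exact (aux k hk m m' y h1 h h').elim
    · exact h1
    · exact (aux k hk m' m y h1 h' h).elim
  · intro k hk ν ω hch
    have hex : ∃ m, U k m ω := by
      obtain ⟨m, _, h⟩ := hUc k hk ν ω hch
      exact ⟨m, h⟩
    refine ⟨Nat.find hex, ?_, Nat.find_spec hex, fun hm h' => ?_⟩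
    · obtain ⟨m, hm, h⟩ := hUc k hk ν ω hch
      exact (Nat.find_min' hex h).trans hm
    · have := Nat.find_min hex (m := Nat.find hex - 1) (by omega)
      exact this h'
  · intro k hk ν ω m hch hDm
    exact hP k hk ν ω m hch hDm.1
  · intro m t S' hS' hne hS''
    have hDall : ∀ k ∈ S', ∀ y ∈ {y | lb' m y = t}, U k m y := by
      intro k hk y hy
      obtain ⟨y', h1, h2⟩ := hS'' k hk
      have e2 : lb m y' = lb m y :=
        (congrArg Prod.snd h1).trans (congrArg Prod.snd (hy : lb' m y = t)).symm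
      exact hU k (hS' hk) m y' y e2 h2.1
    have hnon : {y | lb' m y = t}.Nonempty := by
      obtain ⟨k, hk⟩ := hne
      obtain ⟨y', h1, _⟩ := hS'' k hk
      exact ⟨y', h1⟩
    refine hmul m t.2 {y | lb' m y = t} ?_ hnon (fun y hy => congrArg Prod.snd hy) S' hS' hne hDall
    have e : {y | lb' m y = t} = {y | lb (m - 1) y = t.1} ∩ {y | lb m y = t.2} := by
      ext y
      exact ⟨fun h => ⟨congrArg Prod.fst h, congrArg Prod.snd h⟩, fun h => Prod.ext h.1 h.2⟩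
    rw [e]
    exact (hmeas _ _).inter (hmeas _ _)

end Vale.Agent.P092.H156.CO
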