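import Vale.Agent.P092.H156.CO.Proj
import Vale.Agent.P092.H156.CO.UnitY
import Vale.Agent.P092.H217.F4u

/-!
P092, stage 3 over every local field (helper156): **the multiplier bound on one
Carnot-Caratheodory cell of lines**, for tame functions of `sq M *ᵥ q y`.
-/

set_option linter.all false

namespace Vale.Agent.P092.H156.CO

open Finset Matrix
open Vale.Agent.P092.H820 (wd)
open Vale.Agent.P092.H464 (Pv CI)
open Vale.Agent.P092.H714.Cl (hf hf_add_left hf_smul_left hf_add_right hf_smul_right hf_zero_left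
  hf_zero_right)
open Vale.Agent.P092.H835.PlF (w3 Alt sq sq_wd alt_wd alt_sq)
open Vale.Agent.P092.H589.K2 (Cells Nrm mn mn_wd wd_norm_le nrm_one nrm_ne Opf Tame)
open Vale.Agent.P092.H589.Mu (Cap Mul)
open Vale.Agent.P092.H217.F

section alg

variable {𝕜 : Type} [NontriviallyNormedField 𝕜] {n : Type} [Fintype n] [DecidableEq n]
  {σ : 𝕜 →+* 𝕜} {J : Matrix n n 𝕜} {β : ℝ}

lemma alt_add' {u v : n × n → 𝕜} (hu : Alt u) (hv : Alt v) : Alt (u + v) :=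
  ⟨fun a => by rw [Pi.add_apply, hu.1 a, hv.1 a, add_zero],
    fun a b => by rw [Pi.add_apply, Pi.add_apply, hu.2 a b, hv.2 a b]; ring⟩

lemma alt_smul' (c : 𝕜) {v : n × n → 𝕜} (hv : Alt v) : Alt (c • v) :=
  ⟨fun a => by rw [Pi.smul_apply, hv.1 a, smul_zero],
    fun a b => by rw [Pi.smul_apply, Pi.smul_apply, hv.2 a b, smul_neg]⟩

lemma alt_sub' {u v : n × n → 𝕜} (hu : Alt u) (hv : Alt v) : Alt (u - v) :=
  ⟨fun a => by rw [Pi.sub_apply, hu.1 a, hv.1 a, sub_zero],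
    fun a b => by rw [Pi.sub_apply, Pi.sub_apply, hu.2 a b, hv.2 a b]; ring⟩

/-- the alternating 2-vectors -/
def altE (𝕜 n : Type) [NontriviallyNormedField 𝕜] : Submodule 𝕜 (n × n → 𝕜) where
  carrier := {v | Alt v}
  add_mem' hu hv := ⟨fun a => by rw [Pi.add_apply, hu.1 a, hv.1 a, add_zero],
    fun a b => by rw [Pi.add_apply, Pi.add_apply, hu.2 a b, hv.2 a b]; ring⟩
  zero_mem' := ⟨fun a => rfl, fun a b => by simp⟩
  smul_mem' c v hv := ⟨fun a => by rw [Pi.smul_apply, hv.1 a, smul_zero],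
    fun a b => by rw [Pi.smul_apply, Pi.smul_apply, hv.2 a b, smul_neg]⟩

lemma Bm_add (u v P : n × n → 𝕜) : Bm σ J (u + v) P = Bm σ J u P + Bm σ J v P := by
  funext p
  exact hf_add_left σ J (fun c => u (p.1, c)) (fun c => v (p.1, c)) _

lemma Bm_smul (c : 𝕜) (v P : n × n → 𝕜) : Bm σ J (c • v) P = c • Bm σ J v P := by
  funext p
  exact hf_smul_left σ J c (fun d => v (p.1, d)) _

lemma Bm_add_right (u v P : n × n → 𝕜) : Bm σ J P (u + v) = Bm σ J P u + Bm σ J P v := by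
  funext p
  exact hf_add_right σ J _ (fun c => u (p.2, c)) (fun c => v (p.2, c))

variable {C m C₂ : ℝ} {M : Matrix n n 𝕜} {x : n → 𝕜}

/-- **(D)**, linear form -/
lemma boundL (h : Fm σ J β) (hM : Nw σ J C m M) (hx : Cx σ J C₂ m M x) {P v : n × n → 𝕜}
    (hP : Pl σ J P) (hv : Alt v) : ‖sq M *ᵥ v‖ ≤
      CB β C C₂ * (m * (β * (‖v‖ * ‖w3 x P‖) + 2 * ‖Bm σ J v P‖) + ‖v‖) := by
  have h1 := boundD h hM hx hP (P' := P + v) (alt_add' hP.alt hv)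
  rw [add_sub_cancel_left, Bm_add, hP.gr, zero_add] at h1
  exact h1

/-- the coordinates of the norm `max (‖v‖ / ‖e₁‖) (‖B(v, P₀)‖ / ‖e₂‖)` -/
def Tm (σ : 𝕜 →+* 𝕜) (J : Matrix n n 𝕜) (e₁ e₂ : 𝕜) (P₀ : n × n → 𝕜) :
    (n × n → 𝕜) →ₗ[𝕜] ((n × n) ⊕ (n × n) → 𝕜) where
  toFun v := Sum.elim (fun a => e₁⁻¹ * v a) (fun a => e₂⁻¹ * Bm σ J v P₀ a)
  map_add' u v := by
    funext i
    cases i with
    | inl a => simp only [Sum.elim_inl, Pi.add_apply]; ring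
    | inr a => simp only [Sum.elim_inr, Pi.add_apply, Bm_add]; ring
  map_smul' c v := by
    funext i
    cases i with
    | inl a => simp only [Sum.elim_inl, Pi.smul_apply, smul_eq_mul, RingHom.id_apply]; ring
    | inr a =>
      simp only [Sum.elim_inr, Pi.smul_apply, smul_eq_mul, RingHom.id_apply, Bm_smul]; ring

lemma Tm_inj {e₁ : 𝕜} (he : e₁ ≠ 0) (e₂ : 𝕜) (P₀ : n × n → 𝕜) :
    Function.Injective (Tm σ J e₁ e₂ P₀) := by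
  intro u v huv
  funext a
  have h1 : e₁⁻¹ * u a = e₁⁻¹ * v a := congrFun huv (Sum.inl a)
  exact mul_left_cancel₀ (inv_ne_zero he) h1

lemma Tm_le {e₁ e₂ : 𝕜} (h1 : e₁ ≠ 0) (h2 : e₂ ≠ 0) {P₀ v : n × n → 𝕜} {r : ℝ} (hr : 0 ≤ r)
    (hv : ‖v‖ ≤ r * ‖e₁‖) (hv' : ‖Bm σ J v P₀‖ ≤ r * ‖e₂‖) : ‖Tm σ J e₁ e₂ P₀ v‖ ≤ r := by
  refine (pi_norm_le_iff_of_nonneg hr).2 fun i => ?_
  cases i with
  | inl a =>
    change ‖e₁⁻¹ * v a‖ ≤ r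
    rw [norm_mul, norm_inv, inv_mul_le_iff₀ (norm_pos_iff.2 h1), mul_comm]
    exact (norm_le_pi_norm v a).trans hv
  | inr a =>
    change ‖e₂⁻¹ * Bm σ J v P₀ a‖ ≤ r
    rw [norm_mul, norm_inv, inv_mul_le_iff₀ (norm_pos_iff.2 h2), mul_comm]
    exact (norm_le_pi_norm (Bm σ J v P₀) a).trans hv'

lemma le_Tm {e₁ e₂ : 𝕜} (h1 : e₁ ≠ 0) (h2 : e₂ ≠ 0) {P₀ v : n × n → 𝕜} {r : ℝ} (hr : 0 ≤ r)
    (h : ‖Tm σ J e₁ e₂ P₀ v‖ ≤ r) : ‖v‖ ≤ r * ‖e₁‖ ∧ ‖Bm σ J v P₀‖ ≤ r * ‖e₂‖ := by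
  constructor
  · refine (pi_norm_le_iff_of_nonneg (by positivity)).2 fun a => ?_
    have h3 : ‖e₁⁻¹ * v a‖ ≤ r := (norm_le_pi_norm (Tm σ J e₁ e₂ P₀ v) (Sum.inl a)).trans h
    rwa [norm_mul, norm_inv, inv_mul_le_iff₀ (norm_pos_iff.2 h1), mul_comm] at h3
  · refine (pi_norm_le_iff_of_nonneg (by positivity)).2 fun a => ?_
    have h3 : ‖e₂⁻¹ * Bm σ J v P₀ a‖ ≤ r :=
      (norm_le_pi_norm (Tm σ J e₁ e₂ P₀ v) (Sum.inr a)).trans h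
    rwa [norm_mul, norm_inv, inv_mul_le_iff₀ (norm_pos_iff.2 h2), mul_comm] at h3

end alg

section cell

variable {𝕜 : Type} [NontriviallyNormedField 𝕜] {K : Type} [NormedAddCommGroup K]
  [InnerProductSpace ℂ K] [CompleteSpace K] {n : Type} [Fintype n] [DecidableEq n] {σ : 𝕜 →+* 𝕜}
  {J : Matrix n n 𝕜} {β : ℝ}

/-- **the multiplier bound on one cell** -/
theorem cellR (h : Fm σ J β) {φ : (n × n → 𝕜) → ℂ} (hφ : Tame K φ) (C C₂ b a₁ a₂ a₃ a₄ : ℝ)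
    (hC : 1 ≤ C) (h₂ : 1 ≤ C₂) (hb : 0 ≤ b) (h1 : 0 ≤ a₁) (h2 : 0 < a₂) (h3 : 0 ≤ a₃)
    (h4 : 0 ≤ a₄) : ∃ MT : ℝ, 0 ≤ MT ∧ ∀ {Y : Type} [MeasurableSpace Y] (q : Y → n × n → 𝕜),
    (∀ y, Pl σ J (q y)) → ∀ {Ls : Set Y → (K →L[ℂ] K)}, Pv Ls →
    ∀ {κ : Type} (S : Finset κ) (M : κ → Matrix n n 𝕜) (m e : ℝ), 1 ≤ m → 0 < e →
    e ≤ a₄ * (m * e ^ 2) → ∀ A : Set Y, MeasurableSet A → A.Nonempty →
    (∀ y ∈ A, ∀ y' ∈ A, ‖q y - q y'‖ ≤ e ∧ ‖Bm σ J (q y) (q y')‖ ≤ b * e ^ 2) →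
    (∀ k ∈ S, Nw σ J C m (M k)) →
    (∀ k ∈ S, ∃ (P : n × n → 𝕜) (x : n → 𝕜), Pl σ J P ∧ Cx σ J C₂ m (M k) x ∧
      ‖w3 x P‖ ≤ a₁ * e ∧ ∀ y ∈ A, ‖q y - P‖ ≤ e) →
    (∀ k ∈ S, ∀ y ∈ A, a₂ * (m * e ^ 2) ≤ ‖sq (M k) *ᵥ q y‖ ∧
      ‖sq (M k) *ᵥ q y‖ ≤ a₃ * (m * e ^ 2)) →
    ∀ (E W : κ → (K →L[ℂ] K)) (F : κ → Y → ℂ) (N : ℝ), 0 ≤ N →
    (∀ k ∈ S, ∀ y, F k y = φ (sq (M k) *ᵥ q y)) → (∀ k ∈ S, Measurable (F k)) →
    (∀ k ∈ S, Opf Ls (F k) (W k)) → Cap S E N →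
    ∀ v, ∑ k ∈ S, ‖E k (W k (Ls A v))‖ ^ 2 ≤ (MT * N) ^ 2 * ‖Ls A v‖ ^ 2 := by
  classical
  obtain ⟨τ, hτ⟩ := NormedField.exists_one_lt_norm 𝕜
  have hτ0 : 0 < ‖τ‖ := one_pos.trans hτ
  have hb1 := h.b1
  have hb0 := h.b0
  obtain ⟨CP, hCP0, hCP⟩ := exists_coord (n × n) ((n × n) ⊕ (n × n))
  obtain ⟨g₀, hg₀, hg₁, hg₂⟩ := H835.NF.exists_scale hτ (show (0 : ℝ) < 1 + b by positivity)
  have hg₀n : 0 < ‖g₀‖ := norm_pos_iff.2 hg₀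
  have hCB : 0 ≤ CB β C C₂ := zero_le_one.trans (CB1 hb1 hC h₂)
  set c₅ : ℝ := ‖g₀‖ * (CB β C C₂ * (CP * ‖τ‖ * (β * a₁ + 2 * (1 + β) + a₄))) with hc₅
  have hc₅0 : 0 ≤ c₅ := by positivity
  obtain ⟨MT, hMT0, hMT⟩ := hφ.op (Option ((n × n) ⊕ (n × n))) (max a₃ c₅) (a₂ / ‖τ‖)
    (by positivity)
  refine ⟨MT, hMT0, ?_⟩
  intro Y _ q hq Ls hLs κ S M m e hm he hem A hA hAne hAs hM hPx hlu E W F N hN hF hFm hW hcap v
  obtain ⟨y0, hy0⟩ := hAne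
  have hme : 0 < m * e ^ 2 := by positivity
  obtain ⟨e₁, he₁, he₁l, he₁u⟩ := H835.NF.exists_scale hτ he
  obtain ⟨e₂, he₂, he₂l, he₂u⟩ := H835.NF.exists_scale hτ (show (0 : ℝ) < e ^ 2 by positivity)
  obtain ⟨g, hg, hgl, hgu⟩ := H835.NF.exists_scale hτ hme
  have hgn : 0 < ‖g‖ := norm_pos_iff.2 hg
  obtain ⟨vv, hvE, hvn, hvs⟩ := hCP 𝕜 (altE 𝕜 n) (Tm σ J e₁ e₂ (q y0)) (Tm_inj he₁ e₂ (q y0))
  have hvb : ∀ i, ‖vv i‖ ≤ CP * ‖τ‖ * e ∧ ‖Bm σ J (vv i) (q y0)‖ ≤ CP * ‖τ‖ * e ^ 2 := by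
    intro i
    obtain ⟨u1, u2⟩ := le_Tm he₁ he₂ hCP0 (hvn i)
    refine ⟨u1.trans ?_, u2.trans ?_⟩
    · rw [mul_assoc]; gcongr
    · rw [mul_assoc]; gcongr
  -- the coordinates
  set u : Option ((n × n) ⊕ (n × n)) → Y → 𝕜 := fun a y =>
    a.elim 1 fun i => g₀⁻¹ * Tm σ J e₁ e₂ (q y0) (q y - q y0) i with hu
  set w : κ → Option ((n × n) ⊕ (n × n)) → n × n → 𝕜 := fun k a =>
    a.elim (g⁻¹ • (sq (M k) *ᵥ q y0)) fun i => g⁻¹ • (sq (M k) *ᵥ (g₀ • vv i)) with hw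
  have hlin : ∀ k y, ∑ a, u a y • w k a = g⁻¹ • (sq (M k) *ᵥ q y) := by
    intro k y
    rw [Fintype.sum_option]
    simp only [hu, hw, Option.elim_none, Option.elim_some, one_smul]
    have h5 : q y - q y0 = ∑ i, Tm σ J e₁ e₂ (q y0) (q y - q y0) i • vv i :=
      hvs _ (alt_sub' (hq y).alt (hq y0).alt)
    have h6 : ∀ i, (g₀⁻¹ * Tm σ J e₁ e₂ (q y0) (q y - q y0) i) •
        (g⁻¹ • (sq (M k) *ᵥ (g₀ • vv i))) =
        g⁻¹ • (sq (M k) *ᵥ (Tm σ J e₁ e₂ (q y0) (q y - q y0) i • vv i)) := by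
      intro i
      rw [mulVec_smul, mulVec_smul, smul_smul, smul_smul, smul_smul]
      congr 1
      field_simp
    rw [sum_congr rfl fun i _ => h6 i, ← smul_sum, ← smul_add, ← Matrix.mulVec_sum, ← h5,
      ← mulVec_add, add_sub_cancel]
  have hmul := hMT Y Ls hLs A hA κ S u w F W ?_ ?_ ?_ ?_ hFm hW
  · have h5 := hmul S (subset_refl _) E N hN hcap (Ls A v)
    have h6 : Ls A (Ls A v) = Ls A v := by
      conv_rhs => rw [← hLs.idem hA]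
      rfl
    calc ∑ k ∈ S, ‖E k (W k (Ls A v))‖ ^ 2 = ∑ k ∈ S, ‖(E k * (W k * Ls A)) (Ls A v)‖ ^ 2 := by
          refine sum_congr rfl fun k _ => ?_
          change _ = ‖E k (W k (Ls A (Ls A v)))‖ ^ 2
          rw [h6]
      _ ≤ (N * MT) ^ 2 * ‖Ls A v‖ ^ 2 := h5
      _ = _ := by rw [mul_comm N MT]
  · -- bounded coordinates
    intro a y hy
    cases a with
    | none => simp [hu]
    | some i =>
      simp only [hu, Option.elim_some]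
      obtain ⟨s1, s2⟩ := hAs y hy y0 hy0
      have h5 : ‖Tm σ J e₁ e₂ (q y0) (q y - q y0)‖ ≤ 1 + b := by
        refine Tm_le he₁ he₂ (by positivity) ?_ ?_
        · calc ‖q y - q y0‖ ≤ e := s1
            _ ≤ 1 * ‖e₁‖ := by rw [one_mul]; exact he₁l
            _ ≤ (1 + b) * ‖e₁‖ := by gcongr; linarith
        · have h7 : Bm σ J (q y - q y0) (q y0) = Bm σ J (q y) (q y0) := by
            have h8 : Bm σ J (q y) (q y0) = Bm σ J (q y - q y0) (q y0) +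
                Bm σ J (q y0) (q y0) := by
              rw [← Bm_add, sub_add_cancel]
            rw [h8, (hq y0).gr, add_zero]
          rw [h7]
          calc ‖Bm σ J (q y) (q y0)‖ ≤ b * e ^ 2 := s2
            _ ≤ (1 + b) * ‖e₂‖ := by
              refine mul_le_mul (by linarith) he₂l (by positivity) (by positivity)
      rw [norm_mul, norm_inv, inv_mul_le_iff₀ hg₀n, mul_one]
      exact ((norm_le_pi_norm _ i).trans h5).trans hg₁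
  · -- bounded vectors
    intro k hk a
    cases a with
    | none =>
      simp only [hw, Option.elim_none]
      rw [norm_smul, norm_inv, inv_mul_le_iff₀ hgn]
      calc ‖sq (M k) *ᵥ q y0‖ ≤ a₃ * (m * e ^ 2) := (hlu k hk y0 hy0).2
        _ ≤ max a₃ c₅ * ‖g‖ := by
          refine mul_le_mul (le_max_left _ _) hgl hme.le (le_max_of_le_left h3)
        _ = _ := mul_comm _ _
    | some i =>
      simp only [hw, Option.elim_some]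
      obtain ⟨P, x, hP, hx, hx3, hPy⟩ := hPx k hk
      obtain ⟨b1, b2⟩ := hvb i
      have hvA : Alt (vv i) := hvE i
      have h5 := boundL h (hM k hk) hx hP hvA
      have h6 : ‖Bm σ J (vv i) P‖ ≤ (1 + β) * (CP * ‖τ‖ * e ^ 2) := by
        have h7 : Bm σ J (vv i) P = Bm σ J (vv i) (q y0) + Bm σ J (vv i) (P - q y0) := by
          rw [← Bm_add_right, add_sub_cancel]
        rw [h7]
        refine (norm_add_le _ _).trans ?_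
        have h8 := h.Bm_le (vv i) (P - q y0)
        have h9 : ‖P - q y0‖ ≤ e := by rw [norm_sub_rev]; exact hPy y0 hy0
        have h10 : β * (‖vv i‖ * ‖P - q y0‖) ≤ β * ((CP * ‖τ‖ * e) * e) := by gcongr
        nlinarith
      have h7 : ‖sq (M k) *ᵥ vv i‖ ≤
          CB β C C₂ * (CP * ‖τ‖ * (β * a₁ + 2 * (1 + β) + a₄)) * (m * e ^ 2) := by
        refine h5.trans ?_
        have h8 : m * (β * (‖vv i‖ * ‖w3 x P‖) + 2 * ‖Bm σ J (vv i) P‖) + ‖vv i‖ ≤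
            CP * ‖τ‖ * (β * a₁ + 2 * (1 + β) + a₄) * (m * e ^ 2) := by
          have h9 : ‖vv i‖ * ‖w3 x P‖ ≤ (CP * ‖τ‖ * e) * (a₁ * e) := by gcongr
          have h10 : m * (β * (‖vv i‖ * ‖w3 x P‖) + 2 * ‖Bm σ J (vv i) P‖) ≤
              m * (β * ((CP * ‖τ‖ * e) * (a₁ * e)) + 2 * ((1 + β) * (CP * ‖τ‖ * e ^ 2))) := by
            gcongr
          have h11 : ‖vv i‖ ≤ CP * ‖τ‖ * (a₄ * (m * e ^ 2)) := b1.trans (by gcongr)
          calc _ ≤ m * (β * ((CP * ‖τ‖ * e) * (a₁ * e)) + 2 * ((1 + β) * (CP * ‖τ‖ * e ^ 2))) +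
                CP * ‖τ‖ * (a₄ * (m * e ^ 2)) := add_le_add h10 h11
            _ = _ := by ring
        calc _ ≤ CB β C C₂ * (CP * ‖τ‖ * (β * a₁ + 2 * (1 + β) + a₄) * (m * e ^ 2)) := by gcongr
          _ = _ := by ring
      rw [norm_smul, norm_inv, inv_mul_le_iff₀ hgn, mulVec_smul, norm_smul]
      calc ‖g₀‖ * ‖sq (M k) *ᵥ vv i‖ ≤ ‖g₀‖ *
            (CB β C C₂ * (CP * ‖τ‖ * (β * a₁ + 2 * (1 + β) + a₄)) * (m * e ^ 2)) := by gcongr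
        _ = c₅ * (m * e ^ 2) := by rw [hc₅]; ring
        _ ≤ max a₃ c₅ * ‖g‖ := by
          refine mul_le_mul (le_max_right _ _) hgl hme.le (le_max_of_le_left h3)
        _ = _ := mul_comm _ _
  · -- lower bound
    intro k hk y hy
    rw [hlin, norm_smul, norm_inv, ← div_eq_inv_mul, div_le_div_iff₀ hτ0 hgn]
    calc a₂ * ‖g‖ ≤ a₂ * (‖τ‖ * (m * e ^ 2)) := by gcongr
      _ = (a₂ * (m * e ^ 2)) * ‖τ‖ := by ring
      _ ≤ ‖sq (M k) *ᵥ q y‖ * ‖τ‖ := by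
        have := (hlu k hk y hy).1
        gcongr
  · intro k hk y hy
    rw [hlin, hφ.1 _ _ (inv_ne_zero hg)]
    exact hF k hk y

end cell

end Vale.Agent.P092.H156.CO
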