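import Mathlib

/-!
P092, stage 3 over every local field (helper156): **a bounded linear projection on every subspace
of a finite power of a normed field**, with a constant which depends only on the dimension.
-/

set_option linter.all false

namespace Vale.Agent.P092.H156.CO

open Finset

variable {𝕜 : Type} [NormedField 𝕜] {I : Type} [Fintype I] [DecidableEq I]

/-- the constants -/
def pc (N : ℝ) : ℕ → ℝ
  | 0 => 0
  | n + 1 => 1 + (N + 1) * pc N n

lemma pc_nonneg {N : ℝ} (hN : 0 ≤ N) : ∀ n, 0 ≤ pc N n
  | 0 => le_rfl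
  | n + 1 => by
    have := pc_nonneg hN n
    simp only [pc]
    positivity

lemma pc_le {N : ℝ} (hN : 0 ≤ N) (n : ℕ) : pc N n ≤ pc N (n + 1) := by
  have := pc_nonneg hN n
  simp only [pc]
  nlinarith

lemma pc_mono {N : ℝ} (hN : 0 ≤ N) {a b : ℕ} (h : a ≤ b) : pc N a ≤ pc N b := by
  induction b, h using Nat.le_induction with
  | base => exact le_rfl
  | succ n _ ih => exact ih.trans (pc_le hN n)

/-- a bounded projection on a subspace of dimension `d` -/
theorem proj_aux (d : ℕ) : ∀ F : Submodule 𝕜 (I → 𝕜), Module.finrank 𝕜 F = d →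
    ∃ f : I → I → 𝕜, (∀ i, f i ∈ F) ∧ (∀ i, ‖f i‖ ≤ pc (Fintype.card I) d) ∧
      ∀ w ∈ F, w = ∑ i, w i • f i := by
  have hN : (0 : ℝ) ≤ Fintype.card I := Nat.cast_nonneg _
  induction d using Nat.strong_induction_on with
  | _ d ih =>
    intro F hF
    rcases Nat.eq_zero_or_pos d with h0 | hpos
    · subst h0
      have hb : F = ⊥ := Submodule.finrank_eq_zero.1 hF
      refine ⟨fun _ => 0, fun i => F.zero_mem, fun i => by simp [pc], fun w hw => ?_⟩
      rw [hb, Submodule.mem_bot] at hw
      simp [hw]
    · -- a pivot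
      have hne : F ≠ ⊥ := by
        rintro rfl
        simp at hF
        omega
      obtain ⟨w, hw, hw0⟩ := Submodule.exists_mem_ne_zero_of_ne_bot hne
      have hI : Nonempty I := by
        by_contra hcon
        rw [not_nonempty_iff] at hcon
        exact hw0 (funext fun b => hcon.elim b)
      obtain ⟨j, _, hj⟩ := Finset.exists_max_image univ (fun b => ‖w b‖) univ_nonempty
      have hwj : w j ≠ 0 := by
        intro hz
        refine hw0 (funext fun b => ?_)
        have := hj b (mem_univ b)
        rw [hz, norm_zero] at this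
        exact norm_le_zero_iff.1 this
      set g : I → 𝕜 := (w j)⁻¹ • w with hg
      have hgF : g ∈ F := F.smul_mem _ hw
      have hgj : g j = 1 := by
        rw [hg, Pi.smul_apply, smul_eq_mul, inv_mul_cancel₀ hwj]
      have hgn : ‖g‖ ≤ 1 := by
        refine (pi_norm_le_iff_of_nonneg zero_le_one).2 fun b => ?_
        rw [hg, Pi.smul_apply, smul_eq_mul, norm_mul, norm_inv, inv_mul_le_iff₀
          (norm_pos_iff.2 hwj), mul_one]
        exact hj b (mem_univ b)
      set F' : Submodule 𝕜 (I → 𝕜) := F ⊓ LinearMap.ker (LinearMap.proj j : (I → 𝕜) →ₗ[𝕜] 𝕜)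
        with hF'
      have hlt : F' < F := by
        refine lt_of_le_of_ne inf_le_left fun h => ?_
        have h1 : g ∈ F' := h ▸ hgF
        have h2 : g j = 0 := h1.2
        rw [hgj] at h2
        exact one_ne_zero h2
      have hd : Module.finrank 𝕜 F' < d := by
        rw [← hF]
        exact Submodule.finrank_lt_finrank_of_lt hlt
      obtain ⟨f, hf1, hf2, hf3⟩ := ih _ hd F' rfl
      have hC : ∀ i, ‖f i‖ ≤ pc (Fintype.card I) (d - 1) := fun i =>
        (hf2 i).trans (pc_mono hN (by omega))
      have hC0 := pc_nonneg hN (d - 1)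
      have hdd : pc (Fintype.card I) d = 1 + (Fintype.card I + 1) * pc (Fintype.card I) (d - 1) := by
        obtain ⟨n, rfl⟩ : ∃ n, d = n + 1 := ⟨d - 1, by omega⟩
        rfl
      have hs : ‖∑ i, g i • f i‖ ≤ Fintype.card I * pc (Fintype.card I) (d - 1) := by
        refine (norm_sum_le _ _).trans ?_
        calc ∑ i, ‖g i • f i‖ ≤ ∑ _i : I, pc (Fintype.card I) (d - 1) := by
              refine sum_le_sum fun i _ => ?_
              rw [norm_smul]
              calc ‖g i‖ * ‖f i‖ ≤ 1 * pc (Fintype.card I) (d - 1) :=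
                    mul_le_mul ((norm_le_pi_norm g i).trans hgn) (hC i) (norm_nonneg _) zero_le_one
                _ = _ := one_mul _
          _ = _ := by rw [sum_const, card_univ, nsmul_eq_mul]
      have hsF : ∑ i, g i • f i ∈ F := F.sum_mem fun i _ => F.smul_mem _ (hf1 i).1
      refine ⟨fun i => if i = j then f j + (g - ∑ i, g i • f i) else f i, fun i => ?_, fun i => ?_,
        fun v hv => ?_⟩
      · by_cases h : i = j
        · simp only [h, if_true]
          exact F.add_mem (hf1 j).1 (F.sub_mem hgF hsF)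
        · simp only [h, if_false]
          exact (hf1 i).1
      · by_cases h : i = j
        · simp only [h, if_true]
          refine (norm_add_le _ _).trans ?_
          have h1 := norm_sub_le g (∑ i, g i • f i)
          have h2 := hC j
          rw [hdd]
          nlinarith
        · simp only [h, if_false]
          refine (hC i).trans ?_
          rw [hdd]
          nlinarith
      · have h1 : v - v j • g ∈ F' := by
          refine ⟨F.sub_mem hv (F.smul_mem _ hgF), ?_⟩
          change (LinearMap.proj j : (I → 𝕜) →ₗ[𝕜] 𝕜) (v - v j • g) = 0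
          simp [hgj]
        have h2 := hf3 _ h1
        have h3 : v = v j • g + ∑ i, (v - v j • g) i • f i := by
          rw [← h2]; abel
        have h4 : ∑ i, (v - v j • g) i • f i = ∑ i, v i • f i - v j • ∑ i, g i • f i := by
          rw [smul_sum, ← sum_sub_distrib]
          refine sum_congr rfl fun i _ => ?_
          rw [Pi.sub_apply, Pi.smul_apply, smul_eq_mul, sub_smul, smul_smul]
        have h5 : ∑ i, v i • (if i = j then f j + (g - ∑ i, g i • f i) else f i) =
            ∑ i, v i • f i + v j • (g - ∑ i, g i • f i) := by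
          have h6 : ∀ i, v i • (if i = j then f j + (g - ∑ i, g i • f i) else f i) =
              v i • f i + if i = j then v j • (g - ∑ i, g i • f i) else 0 := by
            intro i
            by_cases h : i = j
            · simp only [h, if_true, smul_add]
            · simp only [h, if_false, add_zero]
          rw [sum_congr rfl fun i _ => h6 i, sum_add_distrib]
          simp
        rw [h5]
        conv_lhs => rw [h3, h4]
        rw [smul_sub]
        abel

/-- **bounded projections** -/
theorem exists_proj (I : Type) [Fintype I] [DecidableEq I] : ∃ C : ℝ, 0 ≤ C ∧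
    ∀ (𝕜 : Type) [NormedField 𝕜] (F : Submodule 𝕜 (I → 𝕜)), ∃ f : I → I → 𝕜, (∀ i, f i ∈ F) ∧
      (∀ i, ‖f i‖ ≤ C) ∧ ∀ w ∈ F, w = ∑ i, w i • f i := by
  have hN : (0 : ℝ) ≤ Fintype.card I := Nat.cast_nonneg _
  refine ⟨pc (Fintype.card I) (Fintype.card I), pc_nonneg hN _, fun 𝕜 _ F => ?_⟩
  obtain ⟨f, h1, h2, h3⟩ := proj_aux (𝕜 := 𝕜) _ F rfl
  refine ⟨f, h1, fun i => (h2 i).trans (pc_mono hN ?_), h3⟩
  have := Submodule.finrank_le F
  rwa [Module.finrank_fintype_fun_eq_card] at this

/-- the same for an injective linear map: coordinates adapted to the norm `‖T v‖` -/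
theorem exists_coord (J I : Type) [Fintype J] [Fintype I] [DecidableEq I] : ∃ C : ℝ, 0 ≤ C ∧
    ∀ (𝕜 : Type) [NormedField 𝕜] (E : Submodule 𝕜 (J → 𝕜)) (T : (J → 𝕜) →ₗ[𝕜] (I → 𝕜)),
      Function.Injective T → ∃ v : I → J → 𝕜, (∀ i, v i ∈ E) ∧ (∀ i, ‖T (v i)‖ ≤ C) ∧
      ∀ w ∈ E, w = ∑ i, T w i • v i := by
  obtain ⟨C, hC0, hC⟩ := exists_proj I
  refine ⟨C, hC0, fun 𝕜 _ E T hT => ?_⟩
  obtain ⟨f, h1, h2, h3⟩ := hC 𝕜 (E.map T)
  choose v hv hv' using fun i => Submodule.mem_map.1 (h1 i)
  refine ⟨v, hv, fun i => by rw [hv' i]; exact h2 i, fun w hw => hT ?_⟩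
  rw [map_sum]
  simp only [map_smul, hv']
  exact h3 _ (Submodule.mem_map_of_mem hw)

end Vale.Agent.P092.H156.CO
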