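import Vale.Agent.P092.H156.CO.UnitR
import Vale.Agent.P092.H217.F5

/-!
P092, stage 3 over every local field (helper156): **the estimate of one class** `unit3_all` (forms
of Witt index 2, near-1-wall elements), for tame functions. The proof is the one of helper217's
`unit3`, with `unitS_all` in place of `unitS`.
-/

set_option linter.all false

namespace Vale.Agent.P092.H156.CO

open Finset Matrix
open Vale.Agent.P092.H820 (wd)
open Vale.Agent.P092.H464 (Pv CI)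
open Vale.Agent.P092.H714.Cl (hf hf_add_left hf_smul_left hf_add_right hf_smul_right hf_zero_left
  hf_zero_right)
open Vale.Agent.P092.H835.PlF (w3 Alt sq sq_wd alt_wd alt_sq)
open Vale.Agent.P092.H835.NF (sq_mul)
open Vale.Agent.P092.H835.PlGr (w3_smul_left w3_smul_right)
open Vale.Agent.P092.H589.K2 (Cells Nrm mn mn_wd wd_norm_le nrm_one nrm_ne Opf exists_nrm w3_sq Tame)
open Vale.Agent.P092.H589.Mu (Cap)
open Vale.Agent.P092.H217.PK (chainB)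
open Vale.Agent.P092.H217.F

section unit3

variable {𝕜 : Type} [NontriviallyNormedField 𝕜] [ProperSpace 𝕜]
  [MeasurableSpace 𝕜] [BorelSpace 𝕜] {K : Type} [NormedAddCommGroup K] [InnerProductSpace ℂ K]
  [CompleteSpace K] {n : Type} [Fintype n] [DecidableEq n] {σ : 𝕜 →+* 𝕜} {J : Matrix n n 𝕜}
  {β : ℝ}

set_option maxHeartbeats 2000000 in
/-- **the estimate of one class** -/
theorem unit3_all (cl : Cells 𝕜) (h : Fm σ J β) {Ca : ℝ} (hCa : 0 ≤ Ca) (hA : An σ J Ca)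
    (hZ : ZmS σ J) {φ : (n × n → 𝕜) → ℂ} (hφ : Tame K φ) (hφm : Measurable φ) (C C₂ C₃ c₀ : ℝ)
    (hC : 1 ≤ C) (h₂ : 1 ≤ C₂) (h₃ : 1 ≤ C₃) (h0 : 0 < c₀) :
    ∃ T₀ C' : ℝ, 1 ≤ T₀ ∧ 0 ≤ C' ∧
    ∀ (X Y : Type) [TopologicalSpace X] [CompactSpace X] [TopologicalSpace.MetrizableSpace X]
      [MeasurableSpace X] [BorelSpace X] [TopologicalSpace Y] [CompactSpace Y]
      [TopologicalSpace.MetrizableSpace Y] [MeasurableSpace Y] [BorelSpace Y]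
      (s : X → n → 𝕜) (q : Y → n × n → 𝕜), (∀ x, Nrm (s x)) → (∀ x, hf σ J (s x) (s x) = 0) →
      Measurable q → (∀ y, Nrm (q y)) → (∀ y, Iso2 σ J (q y)) →
      ∀ Inc : X → Y → Prop, IsClosed {z : X × Y | Inc z.1 z.2} →
      (∀ x y, Inc x y → w3 (s x) (q y) = 0) →
      ∀ (b z : C(X, ℂ) →⋆ₐ[ℂ] (K →L[ℂ] K)) (l n' : C(Y, ℂ) →⋆ₐ[ℂ] (K →L[ℂ] K)),
      CI Inc (H466.pv b) (H466.pv n') → CI Inc (H466.pv z) (H466.pv n') →
      CI Inc (H466.pv z) (H466.pv l) →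
      ∀ (κ : Type) (S : Finset κ) (M : κ → Matrix n n 𝕜) (η : κ → n → 𝕜) (m : ℝ), 1 ≤ m →
      (∀ k ∈ S, Nw σ J C m (M k)) →
      (∀ k ∈ S, Nrm (η k) ∧ hf σ J (η k) (η k) = 0 ∧ ‖M k *ᵥ η k‖ * m ≤ C₂) →
      ∀ ρ : 𝕜, ρ ≠ 0 → ‖ρ‖ ≤ 1 → T₀ ≤ m * ‖ρ‖ →
      ∀ B : κ → Set X, (∀ k ∈ S, IsClosed (B k)) →
      (∀ k ∈ S, ∀ x ∈ B k, ‖M k *ᵥ s x‖ * m ≤ C₂) →
      ∀ A' : Set X, MeasurableSet A' → (∀ k ∈ S, ∀ x ∈ A', Near σ J C₃ ρ (s x) (η k)) →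
      (∀ k ∈ S, ∀ x ∈ A', ¬ Near σ J c₀ ρ (s x) (η k)) →
      ∀ (E W : κ → (K →L[ℂ] K)) (F : κ → Y → ℂ) (N : ℝ), 0 ≤ N →
      (∀ k ∈ S, E k * H466.pv b (B k) = E k) →
      (∀ k ∈ S, ∀ D, MeasurableSet D → E k * H466.pv n' D = H466.pv n' D * E k) →
      Cap S E N → (∀ k ∈ S, ∀ y, F k y = φ (sq (M k) *ᵥ q y)) →
      (∀ k ∈ S, Opf (H466.pv l) (F k) (W k)) →
      (∀ k ∈ S, ∀ D, MeasurableSet D → W k * H466.pv z D = H466.pv z D * W k) →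
      ∀ v, ∑ k ∈ S, ‖E k (W k (H466.pv z A' v))‖ ^ 2 ≤
        (C' * (1 + Real.log m) * N) ^ 2 * ‖H466.pv z A' v‖ ^ 2 := by
  classical
  have hb := h.b0
  have hb1 := h.b1
  set μ := min c₀ 1 with hμ
  have hμ0 : 0 < μ := lt_min h0 one_pos
  have hμ1 : μ ≤ 1 := min_le_right _ _
  set G : ℝ := 4 * β ^ 4 * C * C₂ ^ 2 with hG
  have hG0 : 0 ≤ G := by positivity
  set T₀ : ℝ := max 1 (G * (8 * β) / μ) with hT₀
  have hT1 : 1 ≤ T₀ := le_max_left _ _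
  have hT0 : 0 < T₀ := by linarith
  set e : ℝ := G / T₀ with he
  have he0 : 0 ≤ e := by positivity
  have he8 : e ≤ μ / (8 * β) := by
    rw [he, div_le_div_iff₀ hT0 (by positivity)]
    have : G * (8 * β) / μ ≤ T₀ := le_max_right _ _
    rw [div_le_iff₀ hμ0] at this
    linarith
  have he1 : e ≤ 1 := by
    refine he8.trans ?_
    rw [div_le_one (by positivity)]
    nlinarith
  have hCn0 : ∀ a b : ℝ, 0 ≤ a → 0 ≤ b → 0 ≤ Cn β a b := fun a b ha hb' => by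
    unfold Cn; positivity
  set N₁ : ℝ := Cn β C₃ C₃ with hN₁
  have hN₁0 : 0 ≤ N₁ := hCn0 _ _ (by linarith) (by linarith)
  set N₂ : ℝ := Cn β e N₁ with hN₂
  have hN₂0 : 0 ≤ N₂ := hCn0 _ _ he0 hN₁0
  set C₅ : ℝ := C + C₂ + C₃ + N₁ + N₂ with hC₅
  have hC₅1 : 1 ≤ C₅ := by linarith
  obtain ⟨C', c', hC'1, hc'0, hZm⟩ := hZ C₅ (μ / 8) hC₅1 (by positivity)
  have hC₂' : 1 ≤ C₂ * C' := one_le_mul_of_one_le_of_one_le h₂ hC'1
  have hc₁ : 0 < c' / C' ^ 2 := by positivity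
  obtain ⟨CU, hCU0, hCU⟩ := unitS_all (K := K) cl h hCa hA hφ C' (C₂ * C') (c' / C' ^ 2) hC'1 hC₂' hc₁
  refine ⟨T₀, CU, hT1, hCU0, ?_⟩
  intro X Y _ _ _ _ _ _ _ _ _ _ s q hs hss hqm hqn hqI Inc hI hinc b z l n' hbn hzn hzl κ S M η m
    hm hM hη ρ hρ0 hρ1 hTρ B hB hBx A' hA' hnear hfar E W F N hN hEB hEn hcap hF hW hWz v
  have hlm : 0 ≤ Real.log m := Real.log_nonneg hm
  have hfin0 : 0 ≤ (CU * (1 + Real.log m) * N) ^ 2 * ‖H466.pv z A' v‖ ^ 2 := by positivity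
  rcases S.eq_empty_or_nonempty with rfl | ⟨k0, hk0⟩
  · simpa using hfin0
  rcases A'.eq_empty_or_nonempty with rfl | ⟨x0, hx0⟩
  · rw [(H604.pv_Pv z).empty]
    simp
  set g : n → 𝕜 := η k0 with hg
  obtain ⟨hgN, hgg, hgC⟩ := hη k0 hk0
  obtain ⟨a, a', hz⟩ := hZm g ρ hgN hgg hρ0 hρ1
  have hρn : 0 < ‖ρ‖ := norm_pos_iff.2 hρ0
  have haa : a' * a = 1 := mul_eq_one_comm.1 hz.inv
  have hm0 : 0 < m := by linarith
  have hmρ1 : 1 ≤ m * ‖ρ‖ := hT1.trans hTρ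
  -- the classes are close to `g`
  have hηg : ∀ k ∈ S, Near σ J N₁ ρ (η k) g := fun k hk =>
    near_tri h (by linarith) (by linarith) hρ1 (hs x0) (hss x0) (hη k hk).1.1 hgN.1
      (hnear k hk x0 hx0) (hnear k0 hk0 x0 hx0)
  -- contracted points
  have hxη : ∀ k ∈ S, ∀ x ∈ B k, Near σ J e ρ (s x) (η k) := fun k hk x hx =>
    near_cx h (hM k hk) h₂ hT1 hTρ (hBx k hk x hx) (hη k hk).2.2
  have hxg : ∀ k ∈ S, ∀ x ∈ B k, Near σ J C₅ ρ (s x) g := fun k hk x hx => by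
    have h1 : Near σ J e ρ (η k) (s x) := by
      obtain ⟨h1, h2⟩ := hxη k hk x hx
      exact ⟨by rw [wd_anti']; exact h1, by rw [h.sym]; exact h2⟩
    have h2 := near_tri h he0 hN₁0 hρ1 (hη k hk).1 (hη k hk).2.1 (hs x).1 hgN.1 h1 (hηg k hk)
    exact h2.mono (by linarith)
  have hyg : ∀ x ∈ A', Near σ J C₅ ρ (s x) g := fun x hx =>
    (hnear k0 hk0 x hx).mono (by linarith)
  -- the zoomed isometries
  have hNw : ∀ k ∈ S, Nw σ J C' (m * ‖ρ‖) (M k * a') := fun k hk =>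
    hz.z1 m (M k) (η k) ((hM k hk).mono (by linarith)) ((hη k hk).2.2.trans (by linarith))
      (hη k hk).1 (hη k hk).2.1 ((hηg k hk).mono (by linarith)) hmρ1
  -- the zoomed representative
  have hback : ∀ y, sq a' *ᵥ (sq a *ᵥ q y) = q y := by
    intro y
    have e1 : (H835.PlF.sq (1 : Matrix n n 𝕜)) = 1 := Matrix.one_kronecker_one
    rw [Matrix.mulVec_mulVec, ← sq_mul, haa, e1, Matrix.one_mulVec]
  have hpm : Measurable fun y => sq a *ᵥ q y := by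
    have hc : Continuous fun w : n × n → 𝕜 => sq a *ᵥ w :=
      Continuous.matrix_mulVec continuous_const continuous_id
    exact hc.measurable.comp hqm
  obtain ⟨q', hqm', hq'⟩ := exists_nrm hpm (fun y h1 => by
    have h2 := hback y
    rw [h1, Matrix.mulVec_zero] at h2
    exact nrm_ne (hqn y) h2.symm)
  choose hqn' t ht0 hqt using hq'
  have hqP : ∀ y, Pl σ J (q y) := fun y => Pl.of_iso2 (hqn y) (hqI y)
  have hqP' : ∀ y, Pl σ J (q' y) := fun y => by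
    refine Pl.of_iso2 (hqn' y) ?_
    obtain ⟨u, w, e0, e1, e2, e3, e4⟩ := hqI y
    refine ⟨t y • (a *ᵥ u), a *ᵥ w, ?_, ?_, ?_, ?_, ?_⟩
    · rw [hqt y, e0, sq_wd]
      funext p
      simp only [wd, Pi.smul_apply, smul_eq_mul]; ring
    · rw [hf_smul_smul, hz.iso, e1]; simp
    · rw [hf_smul_left, hz.iso, e2, mul_zero]
    · rw [hf_smul_right, hz.iso, e3, mul_zero]
    · rw [hz.iso, e4]
  have hpq : ∀ k y, sq (M k) *ᵥ q y = (t y)⁻¹ • (sq (M k * a') *ᵥ q' y) := by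
    intro k y
    rw [hqt y, Matrix.mulVec_smul, smul_smul, inv_mul_cancel₀ (ht0 y), one_smul, sq_mul,
      ← Matrix.mulVec_mulVec, hback]
  have ha0 : ∀ x, a *ᵥ s x ≠ 0 := by
    intro x hx
    have h1 : a' *ᵥ (a *ᵥ s x) = s x := by rw [Matrix.mulVec_mulVec, haa, Matrix.one_mulVec]
    rw [hx, Matrix.mulVec_zero] at h1
    exact nrm_ne (hs x) h1.symm
  have hFm : ∀ k ∈ S, Measurable (F k) := by
    intro k hk
    have e : F k = fun y => φ (sq (M k) *ᵥ q y) := funext fun y => hF k hk y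
    rw [e]
    have hc : Continuous fun w : n × n → 𝕜 => sq (M k) *ᵥ w :=
      Continuous.matrix_mulVec continuous_const continuous_id
    exact hφm.comp (hc.measurable.comp hqm)
  have hfin := hCU q' hqm' hqP' (H604.pv_Pv l) (H604.pv_Pv n') (H466.pv z A') S
    (fun k => M k * a') (m * ‖ρ‖) hmρ1 hNw E W ?_ F N hN ?_ hFm hW hcap v
  · refine hfin.trans ?_
    have h1 : Real.log (m * ‖ρ‖) ≤ Real.log m := by
      refine Real.log_le_log (by positivity) ?_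
      exact mul_le_of_le_one_right hm0.le hρ1
    have h2 : 0 ≤ Real.log (m * ‖ρ‖) := Real.log_nonneg hmρ1
    have h3 : CU * (1 + Real.log (m * ‖ρ‖)) * N ≤ CU * (1 + Real.log m) * N := by gcongr
    exact mul_le_mul_of_nonneg_right (pow_le_pow_left₀ (by positivity) h3 2) (sq_nonneg _)
  · intro k hk D D' hD hD' hDD
    refine chainB hI b z l n' hbn hzn hzl (hB k hk) hA' hD hD' (hEB k hk) (hEn k hk) (hWz k hk) ?_
    intro ν hν ω hω x hx y hy hxν hyν hyω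
    refine hDD ν hν ω hω ?_
    obtain ⟨tx, htx, htx1, htx2⟩ := exists_unit (ha0 x)
    obtain ⟨ty, hty, hty1, hty2⟩ := exists_unit (ha0 y)
    obtain ⟨x1, x2⟩ := hz.z2 (s x) (hs x) (hss x) (hxg k hk x hx)
    obtain ⟨y1, y2⟩ := hz.z2 (s y) (hs y) (hss y) (hyg y hy)
    have hxpos : 0 < ‖a *ᵥ s x‖ := norm_pos_iff.2 (ha0 x)
    have hypos : 0 < ‖a *ᵥ s y‖ := norm_pos_iff.2 (ha0 y)
    have hinc3 : ∀ (u : X) (w : Y) (tu : 𝕜), Inc u w →
        w3 (tu⁻¹ • (a *ᵥ s u)) (q' w) = 0 := by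
      intro u w tu hu
      rw [hqt w, w3_smul_left, w3_smul_right, w3_sq (nrm_ne (hs u)) (hinc u w hu), smul_zero,
        smul_zero]
    refine ⟨tx⁻¹ • (a *ᵥ s x), ty⁻¹ • (a *ᵥ s y), ⟨htx2, ?_, hC₂', ?_⟩,
      ⟨hqP' ν, hqP' ω, hty2, hinc3 x ν tx hxν, hinc3 y ν ty hyν, hinc3 y ω ty hyω⟩, ?_⟩
    · rw [hf_smul_smul, hz.iso, hss x]; simp
    · have e1 : (M k * a') *ᵥ (tx⁻¹ • (a *ᵥ s x)) = tx⁻¹ • (M k *ᵥ s x) := by
        rw [Matrix.mulVec_smul, Matrix.mulVec_mulVec, Matrix.mul_assoc, haa, Matrix.mul_one]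
      rw [e1, norm_smul, norm_inv, htx1]
      have h1 := hBx k hk x hx
      rw [inv_mul_eq_div, div_mul_eq_mul_div, div_le_iff₀ hxpos]
      calc ‖M k *ᵥ s x‖ * (m * ‖ρ‖) = (‖M k *ᵥ s x‖ * m) * ‖ρ‖ := by ring
        _ ≤ C₂ * (C' * ‖a *ᵥ s x‖) := by gcongr
        _ = _ := by ring
    · have hxy : hf σ J (s x) (s y) = 0 := (hqP ν).orth (hinc x ν hxν) (hinc y ν hyν)
      have h1 := far_cx h h0 he0 he8 hρ1 (hs x) (hss x) (hs y).1 (hη k hk).1.1 (hxη k hk x hx)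
        hxy (hfar k hk y hy)
      have h2 := hz.z3 (s x) (s y) (hs x) (hss x) (hs y) (hss y) (hxg k hk x hx) (hyg y hy) h1
      have e1 : wd (tx⁻¹ • (a *ᵥ s x)) (ty⁻¹ • (a *ᵥ s y)) =
          (tx⁻¹ * ty⁻¹) • wd (a *ᵥ s x) (a *ᵥ s y) := by
        funext p
        simp only [wd, Pi.smul_apply, smul_eq_mul]; ring
      rw [e1, norm_smul, norm_mul, norm_inv, norm_inv, htx1, hty1, ← mul_inv, inv_mul_eq_div,
        div_le_div_iff₀ (by positivity) (by positivity)]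
      calc c' * (‖a *ᵥ s x‖ * ‖a *ᵥ s y‖) ≤ c' * ((C' * ‖ρ‖) * (C' * ‖ρ‖)) := by gcongr
        _ = (c' * ‖ρ‖ ^ 2) * C' ^ 2 := by ring
        _ ≤ _ := by gcongr
  · intro k hk y
    rw [hF k hk y, hpq k y, hφ.1 _ _ (inv_ne_zero (ht0 y))]

end unit3

end Vale.Agent.P092.H156.CO
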