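import Vale.Agent.P092.H156.CO.CellR

/-!
P092, stage 3 over every local field (helper156): **the class step at the unit scale**, for tame
functions (no ultrametric hypothesis).
-/

set_option linter.all false

namespace Vale.Agent.P092.H156.CO

open Finset Matrix
open Vale.Agent.P092.H820 (wd)
open Vale.Agent.P092.H464 (Pv CI)
open Vale.Agent.P092.H714.Cl (hf)
open Vale.Agent.P092.H835.PlF (w3 Alt sq sq_wd alt_wd alt_sq)
open Vale.Agent.P092.H589.K2 (Cells Nrm mn mn_wd wd_norm_le nrm_one nrm_ne Opf Tame)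
open Vale.Agent.P092.H589.Mu (Cap)
open Vale.Agent.P092.H217.F

section unitR

variable {𝕜 : Type} [NontriviallyNormedField 𝕜] [ProperSpace 𝕜]
  [MeasurableSpace 𝕜] [BorelSpace 𝕜] {K : Type} [NormedAddCommGroup K] [InnerProductSpace ℂ K]
  [CompleteSpace K] {n : Type} [Fintype n] [DecidableEq n] {σ : 𝕜 →+* 𝕜} {J : Matrix n n 𝕜}
  {β : ℝ}

variable {C m C₂ : ℝ} {M : Matrix n n 𝕜} {P : n × n → 𝕜}

lemma ell_sq' (hm : 0 < m) : m * ell M m P ^ 2 = ‖sq M *ᵥ P‖ := by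
  rw [ell, Real.sq_sqrt (by positivity), mul_div_cancel₀ _ hm.ne']

/-- bounds of the level -/
lemma ell_bd' (h : Fm σ J β) (hM : Nw σ J C m M) (hP : Pl σ J P) :
    0 < ell M m P ∧ ell M m P ≤ C ∧ ell M m P ≤ 2 * β ^ 4 * C * ‖sq M *ᵥ P‖ ∧
      1 ≤ 2 * β ^ 4 * C * m * ell M m P := by
  have hb1 := h.b1
  have hC := hM.C1
  have hm := hM.m1
  have hm0 : 0 < m := by linarith
  set S := ‖sq M *ᵥ P‖ with hS
  have h1 : 1 ≤ 2 * β ^ 4 * C * m * S := by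
    have := adj2 h hM hP.alt
    rwa [hP.one] at this
  have hβ4 : 1 ≤ β ^ 4 := one_le_pow₀ hb1
  have hκ : 1 ≤ 2 * β ^ 4 * C := by
    have := one_le_mul_of_one_le_of_one_le hβ4 hC
    linarith
  set κ := 2 * β ^ 4 * C with hκd
  have hS0 : 0 < S := by
    by_contra hc
    have : S = 0 := le_antisymm (not_lt.1 hc) (norm_nonneg _)
    rw [this, mul_zero] at h1
    linarith
  have h2 : S ≤ C * m := by
    have := hM.u2 P hP.alt
    rwa [hP.one, mul_one] at this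
  have h3 : m * ell M m P ^ 2 = S := ell_sq' hm0
  set ℓ := ell M m P with hℓ
  have hℓ0 : 0 < ℓ := Real.sqrt_pos.2 (by positivity)
  refine ⟨hℓ0, ?_, ?_, ?_⟩
  · by_contra hc
    push Not at hc
    have : C < ℓ ^ 2 := by nlinarith
    nlinarith
  · have h4 : ℓ ^ 2 ≤ κ * S ^ 2 := by
      have : m * ℓ ^ 2 ≤ m * (κ * S ^ 2) := by
        rw [h3]
        nlinarith
      exact le_of_mul_le_mul_left this hm0
    have h5 : ℓ ^ 2 ≤ (κ * S) ^ 2 := by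
      refine h4.trans ?_
      rw [mul_pow]
      have : κ ≤ κ ^ 2 := by nlinarith
      gcongr
    exact le_of_sq_le_sq h5 (by positivity)
  · have h4 : 1 ≤ (κ * m * ℓ) ^ 2 := by
      calc 1 ≤ κ * m * S := h1
        _ = κ * m * (m * ℓ ^ 2) := by rw [h3]
        _ = κ * (m * ℓ) ^ 2 := by ring
        _ ≤ κ ^ 2 * (m * ℓ) ^ 2 := by
            have : κ ≤ κ ^ 2 := by nlinarith
            gcongr
        _ = _ := by ring
    have h5 : (1 : ℝ) ^ 2 ≤ (κ * m * ℓ) ^ 2 := by rw [one_pow]; exact h4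
    exact le_of_sq_le_sq h5 (by positivity)

set_option maxHeartbeats 4000000 in
/-- **the class step at the unit scale**, every local field -/
theorem unitS_all (cl : Cells 𝕜) (h : Fm σ J β) {Ca : ℝ} (hCa : 0 ≤ Ca) (hA : An σ J Ca)
    {φ : (n × n → 𝕜) → ℂ} (hφ : Tame K φ) (C C₂ c₀ : ℝ) (hC : 1 ≤ C) (h₂ : 1 ≤ C₂)
    (h0 : 0 < c₀) : ∃ C' : ℝ, 0 ≤ C' ∧ ∀ {Y : Type} [MeasurableSpace Y] (q : Y → n × n → 𝕜),
    Measurable q → (∀ y, Pl σ J (q y)) → ∀ {Ls Ln : Set Y → (K →L[ℂ] K)}, Pv Ls → Pv Ln →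
    ∀ (Z : K →L[ℂ] K) {κ : Type} (S : Finset κ) (M : κ → Matrix n n 𝕜) (m : ℝ), 1 ≤ m →
    (∀ k ∈ S, Nw σ J C m (M k)) → ∀ (E W : κ → (K →L[ℂ] K)),
    (∀ k ∈ S, ∀ A D : Set Y, MeasurableSet A → MeasurableSet D → (∀ ν ∈ A, ∀ ω ∈ D,
      ¬ ∃ x y, Cx σ J C₂ m (M k) x ∧ Chn σ J x y (q ν) (q ω) ∧ c₀ ≤ ‖wd x y‖) →
      Ln A * (E k * (W k * (Ls D * Z))) = 0) →
    ∀ (F : κ → Y → ℂ) (N : ℝ), 0 ≤ N → (∀ k ∈ S, ∀ y, F k y = φ (sq (M k) *ᵥ q y)) →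
    (∀ k ∈ S, Measurable (F k)) →
    (∀ k ∈ S, Opf Ls (F k) (W k)) → Cap S E N →
    ∀ v, ∑ k ∈ S, ‖E k (W k (Z v))‖ ^ 2 ≤ (C' * (1 + Real.log m) * N) ^ 2 * ‖Z v‖ ^ 2 := by
  classical
  have hb1 := h.b1
  have hb0 := h.b0
  set κ₂ : ℝ := 2 * β ^ 4 * C with hκ₂
  have hβ4 : 1 ≤ β ^ 4 := one_le_pow₀ hb1
  have hκ₂1 : 1 ≤ κ₂ := by
    have := one_le_mul_of_one_le_of_one_le hβ4 hC
    rw [hκ₂]
    linarith
  set k1 : ℝ := K1 β C C₂ with hk1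
  have hk11 : 1 ≤ k1 := K1_ge hb1 hC h₂
  set κ₁ : ℝ := 1 + Ca * k1 with hκ₁
  have hκ₁1 : 1 ≤ κ₁ := by
    have : 0 ≤ Ca * k1 := by positivity
    linarith
  have hCB := CB1 hb1 hC h₂
  set cb : ℝ := CB β C C₂ with hcb
  set dn : ℝ := cb * (β * κ₁ + 2 * (1 + β) + κ₂) with hdn
  have hdn1 : 1 ≤ dn := by
    have h1 : 1 ≤ β * κ₁ + 2 * (1 + β) + κ₂ := by
      have : 0 ≤ β * κ₁ := by positivity
      linarith
    exact one_le_mul_of_one_le_of_one_le hCB h1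
  have hdn0 : 0 < dn := by linarith
  set d : ℝ := 1 / (4 * dn * C) with hd
  have hd0 : 0 < d := by positivity
  have hdnC : 1 ≤ dn * C := one_le_mul_of_one_le_of_one_le hdn1 hC
  have hdC : d * C ≤ 1 := by
    rw [hd, div_mul_eq_mul_div, one_mul, div_le_one (by positivity)]
    refine le_mul_of_one_le_left (by linarith) ?_
    linarith
  have hd1 : d ≤ 1 := by
    rw [hd, div_le_one (by positivity)]
    linarith
  have hdd : dn * d ≤ 1 / 4 := by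
    have h1 : dn ≤ dn * C := le_mul_of_one_le_right hdn0.le hC
    rw [hd, mul_one_div, div_le_div_iff₀ (by positivity) (by norm_num)]
    linarith
  set R : ℝ := 3 / d with hR
  have hR0 : 0 < R := by positivity
  set A₁ : ℝ := 2 * κ₁ / c₀ * R + 2 with hA₁
  set A₂ : ℝ := k1 / c₀ ^ 2 * R ^ 2 + (1 + β) with hA₂
  have hA₁0 : 0 ≤ A₁ := by positivity
  have hA₂0 : 0 ≤ A₂ := by positivity
  obtain ⟨Mc, hMc⟩ := lab_pack cl (bf_Bm h) meas_wd A₁ A₂ hA₁0 hA₂0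
  obtain ⟨D, hD0, hD⟩ := exists_J (Q := κ₂ / d) (by
    rw [le_div_iff₀ hd0, one_mul]; linarith)
  obtain ⟨MT, hMT0, hMT⟩ := cellR (K := K) h hφ C C₂ (1 + β) (2 * κ₁ / d) (3 / 4) (5 / d ^ 2)
    (2 * κ₂ / d) hC h₂ (by positivity) (by positivity) (by norm_num) (by positivity)
    (by positivity)
  refine ⟨Mc * MT * D, by positivity, ?_⟩
  intro Y _ q hqm hq Ls Ln hLs hLn Z κ S M m hm hM E W hins F N hN hF hFm hW hE v
  have hm0 : 0 < m := by linarith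
  have hlm : 0 ≤ Real.log m := Real.log_nonneg hm
  obtain ⟨T, lb, P, hfin, hmeas, hsmall, hPm, hPin, hcount⟩ := hMc q hqm (fun y => (hq y).nrm)
    (fun y => (hq y).gr)
  obtain ⟨Jn, hJ1, hJ2⟩ := hD m hm
  set ch : κ → Y → Y → Prop := fun k ν ω =>
    ∃ x y, Cx σ J C₂ m (M k) x ∧ Chn σ J x y (q ν) (q ω) ∧ c₀ ≤ ‖wd x y‖ with hch
  set mm : κ → Y → ℕ := fun k ω => lv (d * ell (M k) m (q ω)) with hmm
  -- the number of levels
  have hJ : ∀ k ∈ S, ∀ ω, mm k ω ≤ Jn := by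
    intro k hk ω
    obtain ⟨h1, h2, h3, h4⟩ := ell_bd' h (hM k hk) (hq ω)
    refine lv_min ?_
    have h5 : d ≤ κ₂ * m * (d * ell (M k) m (q ω)) := by
      calc d = d * 1 := (mul_one d).symm
        _ ≤ d * (κ₂ * m * ell (M k) m (q ω)) := mul_le_mul_of_nonneg_left h4 hd0.le
        _ = _ := by ring
    have h6 : κ₂ * m ≤ d * 2 ^ Jn := by
      have := mul_le_mul_of_nonneg_left hJ1 hd0.le
      calc κ₂ * m = d * (κ₂ / d * m) := by field_simp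
        _ ≤ _ := this
    have h7 : 0 < d * ell (M k) m (q ω) := by positivity
    have h8 : d ≤ d * 2 ^ Jn * (d * ell (M k) m (q ω)) :=
      h5.trans (mul_le_mul_of_nonneg_right h6 h7.le)
    have h9 : 1 ≤ 2 ^ Jn * (d * ell (M k) m (q ω)) := by
      have : d * 1 ≤ d * (2 ^ Jn * (d * ell (M k) m (q ω))) := by linarith
      exact le_of_mul_le_mul_left this hd0
    rw [one_div, inv_pow, inv_le_iff_one_le_mul₀' (by positivity)]
    exact h9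
  -- the geometry of the chains
  have geo : ∀ k ∈ S, ∀ ν ω, ch k ν ω → ∃ x, Cx σ J C₂ m (M k) x ∧
      ‖w3 x (q ω)‖ ≤ κ₁ * ell (M k) m (q ω) ∧
      ‖wd (q ν) (q ω)‖ ≤ 2 * κ₁ / c₀ * ell (M k) m (q ω) ∧
      ‖Bm σ J (q ν) (q ω)‖ ≤ k1 / c₀ ^ 2 * ell (M k) m (q ω) ^ 2 := by
    rintro k hk ν ω ⟨x, y, hx, hc, hw⟩
    obtain ⟨h1, h2, h3, h4⟩ := ell_bd' h (hM k hk) (hq ω)
    obtain ⟨g1, g2, g3⟩ := hc.geo h hCa hA (hM k hk) hx h0 hw
    rw [← ell_sq' hm0] at g1 g3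
    set ℓ := ell (M k) m (q ω) with hℓ
    have e1 : ‖w3 x (q ω)‖ ^ 2 ≤ Ca * k1 * ℓ ^ 2 := by
      have : m * ‖w3 x (q ω)‖ ^ 2 ≤ m * (Ca * k1 * ℓ ^ 2) := by linarith
      exact le_of_mul_le_mul_left this hm0
    have e2 : ‖w3 x (q ω)‖ ≤ κ₁ * ℓ := by
      refine le_of_sq_le_sq (e1.trans ?_) (by positivity)
      rw [mul_pow]
      have t1 : Ca * k1 ≤ κ₁ := by rw [hκ₁]; linarith
      have t2 : κ₁ ≤ κ₁ ^ 2 := by
        rw [pow_two]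
        exact le_mul_of_one_le_left (by linarith) hκ₁1
      exact mul_le_mul_of_nonneg_right (t1.trans t2) (sq_nonneg _)
    refine ⟨x, hx, e2, ?_, ?_⟩
    · refine (pi_norm_le_iff_of_nonneg (by positivity)).2 fun p => ?_
      have e3 := g2 p.1 p.2
      have e4 : wd (q ν) (q ω) p = mn (q ν) (q ω) p.1 p.2 := by simp only [wd, mn]; ring
      rw [e4, div_mul_eq_mul_div, le_div_iff₀ h0]
      linarith
    · rw [div_mul_eq_mul_div, le_div_iff₀ (by positivity)]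
      have : m * (‖Bm σ J (q ν) (q ω)‖ * c₀ ^ 2) ≤ m * (k1 * ℓ ^ 2) := by linarith
      exact le_of_mul_le_mul_left this hm0
  -- the cells are small
  have hcell : ∀ k ∈ S, ∀ ν ω ω', ch k ν ω → lb (mm k ω) ω' = lb (mm k ω) ω →
      ‖sq (M k) *ᵥ (q ω' - q ω)‖ ≤ 1 / 4 * ‖sq (M k) *ᵥ q ω‖ := by
    intro k hk ν ω ω' hc hl
    obtain ⟨x, hx, g1, -, -⟩ := geo k hk ν ω hc
    obtain ⟨h1, h2, h3, h4⟩ := ell_bd' h (hM k hk) (hq ω)
    obtain ⟨s1, s2⟩ := hsmall _ _ _ hl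
    have hlv : (1 / 2 : ℝ) ^ mm k ω ≤ d * ell (M k) m (q ω) := lv_le (by positivity)
    have hMS := ell_sq' (M := M k) (P := q ω) hm0
    set ℓ := ell (M k) m (q ω) with hℓ
    set S_ := ‖sq (M k) *ᵥ q ω‖ with hS_
    have hS0 : 0 ≤ S_ := norm_nonneg _
    have hp : (0 : ℝ) ≤ (1 / 2) ^ mm k ω := by positivity
    have s1' : ‖q ω' - q ω‖ ≤ d * ℓ := s1.trans hlv
    have s2' : ‖Bm σ J (q ω') (q ω)‖ ≤ (1 + β) * (d * ℓ) ^ 2 := by
      refine s2.trans ?_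
      gcongr
    refine (boundD h (hM k hk) hx (hq ω) (hq ω').alt).trans ?_
    have t1 : m * (β * (‖q ω' - q ω‖ * ‖w3 x (q ω)‖) + 2 * ‖Bm σ J (q ω') (q ω)‖) ≤
        d * (β * κ₁ + 2 * (1 + β)) * S_ := by
      calc m * (β * (‖q ω' - q ω‖ * ‖w3 x (q ω)‖) + 2 * ‖Bm σ J (q ω') (q ω)‖)
          ≤ m * (β * ((d * ℓ) * (κ₁ * ℓ)) + 2 * ((1 + β) * (d * ℓ) ^ 2)) := by gcongr
        _ = d * (β * κ₁ + 2 * (1 + β) * d) * (m * ℓ ^ 2) := by ring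
        _ ≤ d * (β * κ₁ + 2 * (1 + β) * 1) * (m * ℓ ^ 2) := by gcongr
        _ = _ := by rw [hMS, mul_one]
    have t2 : ‖q ω' - q ω‖ ≤ d * κ₂ * S_ := by
      calc ‖q ω' - q ω‖ ≤ d * ℓ := s1'
        _ ≤ d * (κ₂ * S_) := by gcongr
        _ = _ := by ring
    calc cb * (m * (β * (‖q ω' - q ω‖ * ‖w3 x (q ω)‖) + 2 * ‖Bm σ J (q ω') (q ω)‖) +
          ‖q ω' - q ω‖) ≤ cb * (d * (β * κ₁ + 2 * (1 + β)) * S_ + d * κ₂ * S_) := by gcongr
      _ = (dn * d) * S_ := by rw [hdn]; ring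
      _ ≤ _ := by gcongr
  have heq : ∀ k ω ω', sq (M k) *ᵥ q ω' = sq (M k) *ᵥ q ω + sq (M k) *ᵥ (q ω' - q ω) := by
    intro k ω ω'
    rw [mulVec_sub]; abel
  -- comparison of the sizes inside one cell
  have hcmp : ∀ k ∈ S, ∀ ν ω ω', ch k ν ω → lb (mm k ω) ω' = lb (mm k ω) ω →
      3 / 4 * ‖sq (M k) *ᵥ q ω‖ ≤ ‖sq (M k) *ᵥ q ω'‖ ∧
      ‖sq (M k) *ᵥ q ω'‖ ≤ 5 / 4 * ‖sq (M k) *ᵥ q ω‖ := by
    intro k hk ν ω ω' hc hl
    have h1 := hcell k hk ν ω ω' hc hl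
    have h2 := norm_add_le (sq (M k) *ᵥ q ω) (sq (M k) *ᵥ (q ω' - q ω))
    have h3 := norm_sub_le (sq (M k) *ᵥ q ω + sq (M k) *ᵥ (q ω' - q ω))
      (sq (M k) *ᵥ (q ω' - q ω))
    rw [add_sub_cancel_right] at h3
    rw [← heq k ω ω'] at h2 h3
    constructor <;> linarith
  -- the level of `ω` and `ell`
  have hlev : ∀ k ∈ S, ∀ ω, (1 / 2 : ℝ) ^ mm k ω ≤ d * ell (M k) m (q ω) ∧
      d * ell (M k) m (q ω) ≤ 2 * (1 / 2) ^ mm k ω := by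
    intro k hk ω
    obtain ⟨h1, h2, h3, h4⟩ := ell_bd' h (hM k hk) (hq ω)
    refine ⟨lv_le (by positivity), ?_⟩
    have h5 : d * ell (M k) m (q ω) ≤ 1 := by
      calc d * ell (M k) m (q ω) ≤ d * C := by gcongr
        _ ≤ 1 := hdC
    have h6 := lv_gt (R := 1) (by positivity : 0 < d * ell (M k) m (q ω)) le_rfl h5
    rw [mul_one] at h6
    exact h6
  set U : κ → ℕ → Y → Prop := fun k j y =>
    ∃ ν ω, ch k ν ω ∧ mm k ω = j ∧ lb j ω = lb j y with hU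
  -- the size of a point of level `j`
  have hsz : ∀ k ∈ S, ∀ j y, U k j y →
      3 / 4 * (m * ((1 / 2) ^ j) ^ 2) ≤ ‖sq (M k) *ᵥ q y‖ ∧
      ‖sq (M k) *ᵥ q y‖ * d ^ 2 ≤ 5 * (m * ((1 / 2) ^ j) ^ 2) ∧
      3 / 4 * (m * ((1 / 2) ^ j) ^ 2) ≤ ‖sq (M k) *ᵥ q y‖ * d ^ 2 := by
    rintro k hk j y ⟨ν, ω, hc, hj, hl⟩
    subst hj
    obtain ⟨c1, c2⟩ := hcmp k hk ν ω y hc hl.symm
    obtain ⟨l1, l2⟩ := hlev k hk ω
    have hMS := ell_sq' (M := M k) (P := q ω) hm0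
    obtain ⟨h1, h2, h3, h4⟩ := ell_bd' h (hM k hk) (hq ω)
    set ℓ := ell (M k) m (q ω) with hℓ
    set S_ := ‖sq (M k) *ᵥ q ω‖ with hS_
    set e : ℝ := (1 / 2) ^ mm k ω with he
    have he0 : 0 < e := by positivity
    have p1 : e ^ 2 ≤ (d * ℓ) ^ 2 := pow_le_pow_left₀ he0.le l1 2
    have p2 : (d * ℓ) ^ 2 ≤ (2 * e) ^ 2 := pow_le_pow_left₀ (by positivity) l2 2
    have p3 : m * e ^ 2 ≤ S_ * d ^ 2 := by
      calc m * e ^ 2 ≤ m * (d * ℓ) ^ 2 := by gcongr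
        _ = (m * ℓ ^ 2) * d ^ 2 := by ring
        _ = _ := by rw [hMS]
    have p4 : S_ * d ^ 2 ≤ 4 * (m * e ^ 2) := by
      calc S_ * d ^ 2 = m * (d * ℓ) ^ 2 := by rw [← hMS]; ring
        _ ≤ m * (2 * e) ^ 2 := by gcongr
        _ = _ := by ring
    have hd2 : d ^ 2 ≤ 1 := pow_le_one₀ hd0.le hd1
    have hS0 : 0 ≤ S_ := norm_nonneg _
    have p5 : S_ * d ^ 2 ≤ S_ := mul_le_of_le_one_right hS0 hd2
    have hd20 : 0 ≤ d ^ 2 := by positivity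
    have p6 := mul_le_mul_of_nonneg_right c1 hd20
    have p7 := mul_le_mul_of_nonneg_right c2 hd20
    refine ⟨?_, ?_, ?_⟩
    · linarith
    · linarith
    · linarith
  -- ell of a point of level `j`
  have hle : ∀ k ∈ S, ∀ j y, U k j y → ell (M k) m (q y) ≤ R * (1 / 2) ^ j := by
    intro k hk j y hy
    obtain ⟨-, u2, -⟩ := hsz k hk j y hy
    have hMS := ell_sq' (M := M k) (P := q y) hm0
    obtain ⟨h1, h2, h3, h4⟩ := ell_bd' h (hM k hk) (hq y)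
    set ℓ := ell (M k) m (q y) with hℓ
    set e : ℝ := (1 / 2) ^ j with he
    have he0 : 0 < e := by positivity
    have p1 : (d * ℓ) ^ 2 ≤ (3 * e) ^ 2 := by
      have : m * (d * ℓ) ^ 2 ≤ m * (5 * e ^ 2) := by
        calc m * (d * ℓ) ^ 2 = (m * ℓ ^ 2) * d ^ 2 := by ring
          _ = ‖sq (M k) *ᵥ q y‖ * d ^ 2 := by rw [hMS]
          _ ≤ _ := u2
          _ = _ := by ring
      have h5 := le_of_mul_le_mul_left this hm0
      have h6 : 0 ≤ e ^ 2 := sq_nonneg e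
      have h7 : (3 * e) ^ 2 = 9 * e ^ 2 := by ring
      rw [h7]
      linarith
    have p2 : d * ℓ ≤ 3 * e := le_of_sq_le_sq p1 (by positivity)
    rw [hR, div_mul_eq_mul_div, le_div_iff₀ hd0]
    linarith
  have hfinal := unitZ hLs hLn Z Jn lb hfin hmeas S ch U ?_ ?_ ?_ P hPm ?_
    Mc hcount ?_ E W hins (MT * N) (by positivity) v ?_
  · refine hfinal.trans ?_
    have h1 : (Mc : ℝ) * (MT * N) * ((Jn : ℝ) + 1) ≤
        Mc * MT * D * (1 + Real.log m) * N := by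
      calc (Mc : ℝ) * (MT * N) * ((Jn : ℝ) + 1)
          ≤ Mc * (MT * N) * (D * (1 + Real.log m)) := by gcongr
        _ = _ := by ring
    exact mul_le_mul_of_nonneg_right (pow_le_pow_left₀ (by positivity) h1 2) (sq_nonneg _)
  · -- unions of cells
    rintro k hk j y y' hyy ⟨ν, ω, hc, hj, hl⟩
    exact ⟨ν, ω, hc, hj, hl.trans hyy⟩
  · -- at most two levels
    intro k hk j j' y hy hy'
    obtain ⟨-, a2, -⟩ := hsz k hk j' y hy'
    obtain ⟨-, -, b3⟩ := hsz k hk j y hy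
    obtain ⟨-, c2, -⟩ := hsz k hk j y hy
    obtain ⟨-, -, d3⟩ := hsz k hk j' y hy'
    by_contra hcon
    push Not at hcon
    have h1 : ((1 / 2 : ℝ) ^ j') ^ 2 ≤ 1 / 16 * ((1 / 2) ^ j) ^ 2 := by
      have h2 : (1 / 2 : ℝ) ^ j' ≤ (1 / 2) ^ (j + 2) :=
        pow_le_pow_of_le_one (by norm_num) (by norm_num) (by omega)
      calc ((1 / 2 : ℝ) ^ j') ^ 2 ≤ ((1 / 2) ^ (j + 2)) ^ 2 :=
            pow_le_pow_left₀ (by positivity) h2 2
        _ = _ := by rw [pow_add]; ring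
    have h3 : (0 : ℝ) < ((1 / 2) ^ j) ^ 2 := by positivity
    have h4 : 3 / 4 * (m * ((1 / 2) ^ j) ^ 2) ≤ 5 * (m * ((1 / 2) ^ j') ^ 2) := b3.trans a2
    have h5 : m * ((1 / 2 : ℝ) ^ j') ^ 2 ≤ m * (1 / 16 * ((1 / 2) ^ j) ^ 2) := by gcongr
    have h6 : 0 < m * ((1 / 2 : ℝ) ^ j) ^ 2 := by positivity
    have h7 : m * (1 / 16 * ((1 / 2 : ℝ) ^ j) ^ 2) = 1 / 16 * (m * ((1 / 2 : ℝ) ^ j) ^ 2) := by
      ring
    rw [h7] at h5
    linarith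
  · intro k hk ν ω hc
    exact ⟨mm k ω, hJ k hk ω, ν, ω, hc, rfl, rfl⟩
  · -- neighbourhoods
    intro k hk ν ω j hc hu
    obtain ⟨x, hx, g1, g2, g3⟩ := geo k hk ν ω hc
    obtain ⟨h1, h2, h3, h4⟩ := ell_bd' h (hM k hk) (hq ω)
    have hℓR := hle k hk j ω hu
    set ℓ := ell (M k) m (q ω) with hℓ
    have he0 : (0 : ℝ) < (1 / 2) ^ j := by positivity
    refine hPin _ ν ω (g2.trans ?_) (g3.trans ?_)
    · calc 2 * κ₁ / c₀ * ℓ ≤ 2 * κ₁ / c₀ * (R * (1 / 2) ^ j) := by gcongr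
        _ = 2 * κ₁ / c₀ * R * (1 / 2) ^ j := by ring
        _ ≤ _ := by rw [hA₁]; gcongr; linarith
    · calc k1 / c₀ ^ 2 * ℓ ^ 2 ≤ k1 / c₀ ^ 2 * (R * (1 / 2) ^ j) ^ 2 := by gcongr
        _ = k1 / c₀ ^ 2 * R ^ 2 * ((1 / 2) ^ j) ^ 2 := by ring
        _ ≤ _ := by rw [hA₂]; gcongr; linarith
  · -- the cells of the next level
    intro j t V hV
    rcases V.eq_empty_or_nonempty with rfl | ⟨s0, hs0⟩
    · simp
    obtain ⟨y0, -, hy0⟩ := hV s0 hs0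
    refine hcount j y0 V fun s hs => ?_
    obtain ⟨y, hy1, hy2⟩ := hV s hs
    refine ⟨⟨y, hy1⟩, ?_⟩
    rw [← hy1]
    obtain ⟨s1, s2⟩ := hsmall (j + 1) y0 y (hy0.trans hy2.symm)
    have he0 : (0 : ℝ) < (1 / 2) ^ j := by positivity
    have hpe : (1 / 2 : ℝ) ^ (j + 1) = 1 / 2 * (1 / 2) ^ j := by rw [pow_succ]; ring
    rw [hpe] at s1 s2
    refine hPin j y0 y ?_ ?_
    · have e : wd (q y0) (q y) = wd (q y0 - q y) (q y) := by
        funext p; simp only [wd, Pi.sub_apply]; ring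
      rw [e]
      refine (wd_norm_le _ _).trans ?_
      rw [nrm_one (hq y).nrm, mul_one]
      have h5 : 2 * ((1 / 2 : ℝ) ^ j) ≤ A₁ * (1 / 2) ^ j := by
        rw [hA₁]
        have : 0 ≤ 2 * κ₁ / c₀ * R := by positivity
        gcongr
        linarith
      linarith
    · refine s2.trans ?_
      have h5 : (1 + β) * ((1 / 2 : ℝ) ^ j) ^ 2 ≤ A₂ * ((1 / 2) ^ j) ^ 2 := by
        have h7 : 0 ≤ k1 / c₀ ^ 2 * R ^ 2 := by positivity
        have h8 : 1 + β ≤ A₂ := by rw [hA₂]; linarith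
        exact mul_le_mul_of_nonneg_right h8 (by positivity)
      have h6 : 0 ≤ (1 + β) * ((1 / 2 : ℝ) ^ j) ^ 2 := by positivity
      calc (1 + β) * (1 / 2 * (1 / 2 : ℝ) ^ j) ^ 2 = 1 / 4 * ((1 + β) * ((1 / 2 : ℝ) ^ j) ^ 2) := by
            ring
        _ ≤ (1 + β) * ((1 / 2 : ℝ) ^ j) ^ 2 := by linarith
        _ ≤ _ := h5
  · -- the multiplier on one cell
    intro j t A hAm hAne hAt S' hS' hSne hAU
    obtain ⟨y0, hy0⟩ := hAne
    have he0 : (0 : ℝ) < (1 / 2) ^ j := by positivity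
    have hsm : ∀ y ∈ A, ∀ y' ∈ A, ‖q y - q y'‖ ≤ (1 / 2) ^ j ∧
        ‖Bm σ J (q y) (q y')‖ ≤ (1 + β) * ((1 / 2) ^ j) ^ 2 := fun y hy y' hy' =>
      hsmall j y y' ((hAt y hy).trans (hAt y' hy').symm)
    have hfin2 := hMT q hq hLs S' M m ((1 / 2) ^ j) hm he0 ?_ A hAm ⟨y0, hy0⟩ hsm
      (fun k hk => hM k (hS' hk)) ?_ ?_ E W F N hN (fun k hk => hF k (hS' hk))
      (fun k hk => hFm k (hS' hk)) (fun k hk => hW k (hS' hk)) ?_ (Z v)
    · exact hfin2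
    · -- `e ≤ a₄ m e²`
      obtain ⟨k, hk⟩ := hSne
      obtain ⟨ν, ω, hc, hj, hl⟩ := hAU k hk y0 hy0
      obtain ⟨l1, l2⟩ := hlev k (hS' hk) ω
      obtain ⟨h1, h2, h3, h4⟩ := ell_bd' h (hM k (hS' hk)) (hq ω)
      rw [hj] at l1 l2
      set ℓ := ell (M k) m (q ω) with hℓ
      rw [div_mul_eq_mul_div, le_div_iff₀ hd0]
      have h5 : d ≤ κ₂ * m * (2 * (1 / 2) ^ j) := by
        calc d = d * 1 := (mul_one d).symm
          _ ≤ d * (κ₂ * m * ℓ) := by gcongr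
          _ = κ₂ * m * (d * ℓ) := by ring
          _ ≤ _ := by gcongr
      calc (1 / 2 : ℝ) ^ j * d ≤ (1 / 2) ^ j * (κ₂ * m * (2 * (1 / 2) ^ j)) := by gcongr
        _ = _ := by ring
    · intro k hk
      obtain ⟨ν, ω, hc, hj, hl⟩ := hAU k hk y0 hy0
      obtain ⟨x, hx, g1, -, -⟩ := geo k (hS' hk) ν ω hc
      obtain ⟨l1, l2⟩ := hlev k (hS' hk) ω
      rw [hj] at l1 l2
      refine ⟨q ω, x, hq ω, hx, ?_, ?_⟩
      · refine g1.trans ?_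
        rw [div_mul_eq_mul_div, le_div_iff₀ hd0]
        calc κ₁ * ell (M k) m (q ω) * d = κ₁ * (d * ell (M k) m (q ω)) := by ring
          _ ≤ κ₁ * (2 * (1 / 2) ^ j) := by gcongr
          _ = _ := by ring
      · intro y hy
        exact (hsmall j y ω ((hAt y hy).trans ((hAt y0 hy0).symm.trans hl.symm))).1
    · intro k hk y hy
      obtain ⟨u1, u2, -⟩ := hsz k (hS' hk) j y (hAU k hk y hy)
      refine ⟨u1, ?_⟩
      rw [div_mul_eq_mul_div, le_div_iff₀ (by positivity)]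
      exact u2
    · exact hE.sub hS'

end unitR

end Vale.Agent.P092.H156.CO
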